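import Mathlib

namespace Vale.Agent.Lib.P226

open MeasureTheory ProbabilityTheory Set Filter
open scoped Topology

/-- The standard normal density. -/
noncomputable def phi (t : ℝ) : ℝ := Real.exp (-(t ^ 2) / 2) / Real.sqrt (2 * Real.pi)

/-- The standard normal upper tail probability. -/
noncomputable def tail (t : ℝ) : ℝ := (gaussianReal 0 1).real (Ioi t)

theorem gaussianPDFReal_eq_phi (t : ℝ) : gaussianPDFReal 0 1 t = phi t := by
  unfold gaussianPDFReal phi
  simp only [NNReal.coe_one, mul_one, sub_zero]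
  field_simp

theorem sqrt_two_pi_pos : 0 < Real.sqrt (2 * Real.pi) :=
  Real.sqrt_pos.2 (by positivity)

theorem phi_pos (t : ℝ) : 0 < phi t :=
  div_pos (Real.exp_pos _) sqrt_two_pi_pos

theorem phi_sq (t : ℝ) : phi t ^ 2 = Real.exp (-(t ^ 2)) / (2 * Real.pi) := by
  unfold phi
  rw [div_pow, Real.sq_sqrt (by positivity), ← Real.exp_nat_mul]
  congr 2
  push_cast
  ring

theorem hasDerivAt_phi (t : ℝ) : HasDerivAt phi (-(t * phi t)) t := by
  have h0 : HasDerivAt (fun s : ℝ => s ^ 2) (2 * t) t := by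
    simpa using hasDerivAt_pow 2 t
  have h1 : HasDerivAt (fun s : ℝ => -(s ^ 2) / 2) (-(2 * t) / 2) t := (h0.neg).div_const 2
  have h2 : HasDerivAt (fun s : ℝ => Real.exp (-(s ^ 2) / 2))
      (Real.exp (-(t ^ 2) / 2) * (-(2 * t) / 2)) t := h1.exp
  have h3 : HasDerivAt (fun s : ℝ => Real.exp (-(s ^ 2) / 2) / Real.sqrt (2 * Real.pi))
      (Real.exp (-(t ^ 2) / 2) * (-(2 * t) / 2) / Real.sqrt (2 * Real.pi)) t :=
    h2.div_const (Real.sqrt (2 * Real.pi))
  have h4 : Real.exp (-(t ^ 2) / 2) * (-(2 * t) / 2) / Real.sqrt (2 * Real.pi)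
      = -(t * phi t) := by
    unfold phi; ring
  rw [h4] at h3
  exact h3

theorem hasDerivAt_neg_phi (t : ℝ) : HasDerivAt (fun s => -phi s) (t * phi t) t := by
  have h : HasDerivAt (fun s => -phi s) (-(-(t * phi t))) t := (hasDerivAt_phi t).neg
  rwa [neg_neg] at h

theorem hasDerivAt_phi_sq (t : ℝ) :
    HasDerivAt (fun s => phi s ^ 2) (-(2 * t * phi t ^ 2)) t := by
  have h : HasDerivAt (fun s => phi s ^ 2) (2 * phi t ^ (2 - 1) * -(t * phi t)) t :=
    (hasDerivAt_phi t).pow 2
  have h4 : 2 * phi t ^ (2 - 1) * -(t * phi t) = -(2 * t * phi t ^ 2) := by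
    norm_num
    ring
  rwa [h4] at h

theorem hasDerivAt_neg_phi_sq (t : ℝ) :
    HasDerivAt (fun s => -(phi s ^ 2)) (2 * t * phi t ^ 2) t := by
  have h : HasDerivAt (fun s => -(phi s ^ 2)) (-(-(2 * t * phi t ^ 2))) t :=
    (hasDerivAt_phi_sq t).neg
  rwa [neg_neg] at h

theorem tendsto_phi : Tendsto phi atTop (𝓝 0) := by
  have h1 : Tendsto (fun s : ℝ => -(s ^ 2) / 2) atTop atBot :=
    (tendsto_neg_atTop_atBot.comp (tendsto_pow_atTop two_ne_zero)).atBot_div_const two_pos
  have h2 : Tendsto (fun s : ℝ => Real.exp (-(s ^ 2) / 2) / Real.sqrt (2 * Real.pi)) atTop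
      (𝓝 (0 / Real.sqrt (2 * Real.pi))) :=
    (Real.tendsto_exp_atBot.comp h1).div_const (Real.sqrt (2 * Real.pi))
  rw [zero_div] at h2
  exact h2

theorem tendsto_phi_sq : Tendsto (fun s => phi s ^ 2) atTop (𝓝 0) := by
  have := tendsto_phi.pow 2
  simpa using this

theorem integrable_phi : Integrable phi :=
  (integrable_gaussianPDFReal 0 1).congr (ae_of_all _ gaussianPDFReal_eq_phi)

theorem integrable_mul_phi : Integrable (fun s : ℝ => s * phi s) := by
  have h := (integrable_mul_exp_neg_mul_sq (by norm_num : (0 : ℝ) < 1 / 2)).div_const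
    (Real.sqrt (2 * Real.pi))
  refine h.congr (ae_of_all _ fun s => ?_)
  simp only [phi]
  rw [mul_div_assoc]
  congr 3
  ring

theorem integrable_mul_phi_sq : Integrable (fun s : ℝ => 2 * s * phi s ^ 2) := by
  have h := ((integrable_mul_exp_neg_mul_sq (by norm_num : (0 : ℝ) < 1)).div_const
    (2 * Real.pi)).const_mul 2
  refine h.congr (ae_of_all _ fun s => ?_)
  simp only [phi_sq]
  rw [mul_assoc, mul_div_assoc]
  congr 4
  ring

theorem tail_eq (t : ℝ) : tail t = ∫ s in Ioi t, phi s := by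
  unfold tail
  rw [Measure.real, gaussianReal_apply_eq_integral 0 one_ne_zero (Ioi t),
    ENNReal.toReal_ofReal]
  · exact setIntegral_congr_fun measurableSet_Ioi (fun s _ => gaussianPDFReal_eq_phi s)
  · exact setIntegral_nonneg measurableSet_Ioi (fun s _ => gaussianPDFReal_nonneg 0 1 s)

theorem integral_Ioi_mul_phi (t : ℝ) : ∫ s in Ioi t, s * phi s = phi t := by
  have h := integral_Ioi_of_hasDerivAt_of_tendsto' (a := t) (f := fun s => -phi s)
    (f' := fun s => s * phi s) (m := -0) (fun x _ => hasDerivAt_neg_phi x)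
    integrable_mul_phi.integrableOn tendsto_phi.neg
  rw [h]; ring

theorem integral_Ioi_id_gaussian (t : ℝ) : ∫ s in Ioi t, s ∂(gaussianReal 0 1) = phi t := by
  rw [gaussianReal_of_var_ne_zero 0 one_ne_zero,
    setIntegral_withDensity_eq_setIntegral_toReal_smul (measurable_gaussianPDF 0 1)
      (ae_of_all _ fun _ => gaussianPDF_lt_top) (fun s => s) measurableSet_Ioi]
  rw [← integral_Ioi_mul_phi t]
  refine setIntegral_congr_fun measurableSet_Ioi (fun s _ => ?_)
  simp only [toReal_gaussianPDF, gaussianPDFReal_eq_phi, smul_eq_mul]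
  ring

theorem phi_sq_eq_integral (t : ℝ) : phi t ^ 2 = ∫ s in Ioi t, 2 * s * phi s ^ 2 := by
  have h := integral_Ioi_of_hasDerivAt_of_tendsto' (a := t) (f := fun s => -(phi s ^ 2))
    (f' := fun s => 2 * s * phi s ^ 2) (m := -0) (fun x _ => hasDerivAt_neg_phi_sq x)
    integrable_mul_phi_sq.integrableOn tendsto_phi_sq.neg
  rw [h]; ring

end Vale.Agent.Lib.P226
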