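import Mathlib
import Vale.Agent.Lib.P226.OneDim

namespace Vale.Agent.Lib.P226

open MeasureTheory ProbabilityTheory Set Filter
open scoped Topology

/-- The integrand whose tail integral is `c * tail t - phi t ^ 2`. -/
noncomputable def kfun (c s : ℝ) : ℝ := phi s * (c - 2 * s * phi s)

theorem integrable_kfun (c : ℝ) : Integrable (kfun c) := by
  have h := (integrable_phi.const_mul c).sub integrable_mul_phi_sq
  refine h.congr (ae_of_all _ fun s => ?_)
  simp only [kfun, Pi.sub_apply]
  ring

theorem key_integral (c t : ℝ) : c * tail t - phi t ^ 2 = ∫ s in Ioi t, kfun c s := by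
  rw [tail_eq, phi_sq_eq_integral, ← integral_const_mul, ← integral_sub]
  · refine setIntegral_congr_fun measurableSet_Ioi (fun s _ => ?_)
    simp only [kfun]
    ring
  · exact (integrable_phi.const_mul c).integrableOn
  · exact integrable_mul_phi_sq.integrableOn

theorem key_split (c : ℝ) {a t : ℝ} (hat : a ≤ t) :
    (c * tail a - phi a ^ 2) - (c * tail t - phi t ^ 2) = ∫ s in a..t, kfun c s := by
  rw [key_integral, key_integral]
  exact intervalIntegral.integral_Ioi_sub_Ioi (integrable_kfun c).integrableOn hat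

/-- `g s = 2 * s * phi s`. -/
noncomputable def gfun (s : ℝ) : ℝ := 2 * s * phi s

theorem hasDerivAt_gfun (s : ℝ) : HasDerivAt gfun (2 * phi s * (1 - s ^ 2)) s := by
  have h1 : HasDerivAt (fun x : ℝ => 2 * x) 2 s := by
    simpa using (hasDerivAt_id s).const_mul (2 : ℝ)
  have h2 : HasDerivAt (fun x : ℝ => 2 * x * phi x) (2 * phi s + 2 * s * -(s * phi s)) s :=
    h1.mul (hasDerivAt_phi s)
  have h3 : 2 * phi s + 2 * s * -(s * phi s) = 2 * phi s * (1 - s ^ 2) := by ring
  rw [h3] at h2
  exact h2

theorem gfun_antitoneOn : AntitoneOn gfun (Ici 1) := by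
  apply antitoneOn_of_deriv_nonpos (convex_Ici 1)
  · exact fun x _ => (hasDerivAt_gfun x).continuousAt.continuousWithinAt
  · exact fun x _ => (hasDerivAt_gfun x).differentiableAt.differentiableWithinAt
  · intro x hx
    rw [interior_Ici] at hx
    rw [(hasDerivAt_gfun x).deriv]
    have h1 : (1 : ℝ) < x := hx
    have h2 := phi_pos x
    have h3 : 1 - x ^ 2 ≤ 0 := by nlinarith
    exact mul_nonpos_of_nonneg_of_nonpos (by positivity) h3

theorem gfun_monotoneOn : MonotoneOn gfun (Icc 0 1) := by
  apply monotoneOn_of_deriv_nonneg (convex_Icc 0 1)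
  · exact fun x _ => (hasDerivAt_gfun x).continuousAt.continuousWithinAt
  · exact fun x _ => (hasDerivAt_gfun x).differentiableAt.differentiableWithinAt
  · intro x hx
    rw [interior_Icc] at hx
    rw [(hasDerivAt_gfun x).deriv]
    have h2 := phi_pos x
    have h3 : 0 ≤ 1 - x ^ 2 := by nlinarith [hx.1, hx.2]
    positivity

theorem kfun_nonneg_of {c s : ℝ} (h : gfun s ≤ c) : 0 ≤ kfun c s := by
  unfold kfun
  unfold gfun at h
  exact mul_nonneg (phi_pos s).le (by linarith)

theorem kfun_nonpos_of {c s : ℝ} (h : c ≤ gfun s) : kfun c s ≤ 0 := by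
  unfold kfun
  unfold gfun at h
  exact mul_nonpos_of_nonneg_of_nonpos (phi_pos s).le (by linarith)

/-- Tail inequality: if `phi a ^ 2 ≤ c * tail a` at a point `a` which is either at least `1`
or lies in `[0, 1]` with `c ≤ 2 a phi a`, then `phi t ^ 2 ≤ c * tail t` for all `t ≥ a`. -/
theorem tail_ineq_of_start (c a : ℝ) (ha0 : 0 ≤ a) (hcase : 1 ≤ a ∨ c ≤ gfun a)
    (hstart : phi a ^ 2 ≤ c * tail a) {t : ℝ} (hat : a ≤ t) : phi t ^ 2 ≤ c * tail t := by
  by_cases hg : 1 ≤ t ∧ gfun t ≤ c
  · -- the integrand is nonnegative beyond `t`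
    have h := key_integral c t
    have h2 : 0 ≤ ∫ s in Ioi t, kfun c s := by
      apply setIntegral_nonneg measurableSet_Ioi
      intro s hs
      apply kfun_nonneg_of
      have hs' : t ≤ s := le_of_lt hs
      have := gfun_antitoneOn (mem_Ici.2 hg.1) (mem_Ici.2 (hg.1.trans hs')) hs'
      linarith [hg.2]
    linarith
  · -- the integrand is nonpositive on `[a, t]`
    have h := key_split c hat
    have h2 : ∫ s in a..t, kfun c s ≤ 0 := by
      have h3 : 0 ≤ ∫ s in a..t, -kfun c s := by
        apply intervalIntegral.integral_nonneg hat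
        intro s hs
        rw [neg_nonneg]
        apply kfun_nonpos_of
        -- show c ≤ gfun s
        by_cases hs1 : s ≤ 1
        · -- then a ≤ 1, so c ≤ gfun a ≤ gfun s
          have ha1 : a ≤ 1 := hs.1.trans hs1
          have hca : c ≤ gfun a := by
            rcases hcase with h1 | h1
            · have hae : a = 1 := le_antisymm ha1 h1
              have hse : s = 1 := le_antisymm hs1 (hae ▸ hs.1)
              have hte : ¬ gfun t ≤ c := fun hh => hg ⟨hae ▸ hat, hh⟩
              have ht1 : 1 ≤ t := hae ▸ hat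
              have := gfun_antitoneOn (mem_Ici.2 (le_refl 1)) (mem_Ici.2 ht1) ht1
              rw [hae]
              linarith [not_le.1 hte]
            · exact h1
          have := gfun_monotoneOn ⟨ha0, ha1⟩ ⟨ha0.trans hs.1, hs1⟩ hs.1
          linarith
        · -- s > 1, hence t > 1 and gfun t > c
          have hs1' : 1 ≤ s := le_of_lt (not_le.1 hs1)
          have ht1 : 1 ≤ t := hs1'.trans hs.2
          have hte : c < gfun t := by
            by_contra hh
            exact hg ⟨ht1, not_lt.1 hh⟩
          have := gfun_antitoneOn (mem_Ici.2 hs1') (mem_Ici.2 ht1) hs.2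
          linarith
      rw [intervalIntegral.integral_neg] at h3
      linarith
    linarith

end Vale.Agent.Lib.P226
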