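import Mathlib
import Vale.Agent.Lib.P226.TailIneq

namespace Vale.Agent.Lib.P226

open MeasureTheory ProbabilityTheory Set Filter
open scoped Topology

theorem phi_zero : phi 0 = 1 / Real.sqrt (2 * Real.pi) := by
  unfold phi
  simp

theorem phi_le_phi_zero (t : ℝ) : phi t ≤ phi 0 := by
  unfold phi
  apply div_le_div_of_nonneg_right _ sqrt_two_pi_pos.le
  apply Real.exp_le_exp.2
  have := sq_nonneg t
  norm_num
  linarith

theorem one_le_sqrt_two_pi : 1 ≤ Real.sqrt (2 * Real.pi) := by
  rw [Real.one_le_sqrt]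
  have := Real.pi_gt_three
  linarith

theorem phi_le_one (t : ℝ) : phi t ≤ 1 := by
  refine (phi_le_phi_zero t).trans ?_
  rw [phi_zero, div_le_one sqrt_two_pi_pos]
  exact one_le_sqrt_two_pi

theorem tail_zero : tail 0 = 1 / 2 := by
  rw [tail_eq]
  have h : ∀ s : ℝ, phi s = Real.exp (-(1 / 2) * s ^ 2) / Real.sqrt (2 * Real.pi) := by
    intro s
    unfold phi
    congr 2
    ring
  simp_rw [h]
  rw [integral_div, integral_gaussian_Ioi]
  have h2 : Real.pi / (1 / 2) = 2 * Real.pi := by ring
  rw [h2]
  have := sqrt_two_pi_pos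
  field_simp

theorem tail_sub (a t : ℝ) : tail a - tail t = ∫ s in a..t, phi s := by
  rw [tail_eq, tail_eq]
  exact intervalIntegral.integral_Ioi_sub_Ioi' integrable_phi.integrableOn
    integrable_phi.integrableOn

theorem continuous_tail : Continuous tail := by
  have h : tail = fun t => tail 0 - ∫ s in (0 : ℝ)..t, phi s := by
    funext t
    rw [← tail_sub 0 t]
    ring
  rw [h]
  exact continuous_const.sub
    (intervalIntegral.continuous_primitive (fun a b => integrable_phi.intervalIntegrable) 0)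

theorem tail_nonneg (t : ℝ) : 0 ≤ tail t := by
  rw [tail_eq]
  exact setIntegral_nonneg measurableSet_Ioi (fun s _ => (phi_pos s).le)

theorem tail_le_phi_div {b : ℝ} (hb : 0 < b) : tail b ≤ phi b / b := by
  rw [tail_eq]
  have h1 : ∫ s in Ioi b, phi s ≤ ∫ s in Ioi b, (1 / b) * (s * phi s) := by
    apply setIntegral_mono_on integrable_phi.integrableOn
      (integrable_mul_phi.const_mul (1 / b)).integrableOn measurableSet_Ioi
    intro s hs
    have hs' : b < s := hs
    have hp := phi_pos s
    rw [one_div, ← mul_assoc, inv_mul_eq_div]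
    have : 1 ≤ s / b := by
      rw [le_div_iff₀ hb]
      linarith
    nlinarith
  rw [integral_const_mul, integral_Ioi_mul_phi] at h1
  calc ∫ s in Ioi b, phi s ≤ 1 / b * phi b := h1
    _ = phi b / b := by ring

/-- Quantiles of the standard normal tail. -/
theorem exists_quantile {a m : ℝ} (hm : 0 < m) (hma : m ≤ tail a) :
    ∃ t, a ≤ t ∧ tail t = m := by
  obtain ⟨b, hb⟩ : ∃ b : ℝ, b = max a (1 / m) := ⟨_, rfl⟩
  have hab : a ≤ b := hb ▸ le_max_left _ _
  have hmb : 1 / m ≤ b := hb ▸ le_max_right _ _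
  have hbpos : 0 < b := lt_of_lt_of_le (by positivity) hmb
  have h1 : tail b ≤ m := by
    have h2 := tail_le_phi_div hbpos
    have h3 : phi b / b ≤ 1 / b := div_le_div_of_nonneg_right (phi_le_one b) hbpos.le
    have h4 : 1 / b ≤ m := by
      rw [div_le_iff₀ hbpos]
      rw [div_le_iff₀ hm] at hmb
      linarith
    linarith
  have h5 := intermediate_value_Icc' hab continuous_tail.continuousOn
  obtain ⟨t, ht, hte⟩ := h5 ⟨h1, hma⟩
  exact ⟨t, ht.1, hte⟩

/-- Tail inequality on the whole half-line from data at two nearby points. -/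
theorem tail_ineq_universal (c a1 a2 : ℝ) (h0 : 0 ≤ a1) (h12 : a1 ≤ a2) (h21 : a2 ≤ 1)
    (hg1 : gfun a1 ≤ c) (hg2 : c ≤ gfun a2)
    (hstart : phi a2 ^ 2 + (a2 - a1) * phi 0 * (gfun a2 - c) ≤ c * tail a2)
    {t : ℝ} (ht : 0 ≤ t) : phi t ^ 2 ≤ c * tail t := by
  have hδ : 0 ≤ (a2 - a1) * phi 0 * (gfun a2 - c) :=
    mul_nonneg (mul_nonneg (by linarith) (phi_pos 0).le) (by linarith)
  have mid : ∀ u, a1 ≤ u → u ≤ a2 → phi u ^ 2 ≤ c * tail u := by
    intro u hu1 hu2
    have h := key_split c hu2
    have h2 : -((a2 - a1) * phi 0 * (gfun a2 - c)) ≤ ∫ s in u..a2, kfun c s := by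
      have h3 : ∫ _s in u..a2, -(phi 0 * (gfun a2 - c)) ≤ ∫ s in u..a2, kfun c s := by
        apply intervalIntegral.integral_mono_on hu2 intervalIntegrable_const
          (integrable_kfun c).intervalIntegrable
        intro s hs
        have hs0 : 0 ≤ s := h0.trans (hu1.trans hs.1)
        have hs1 : s ≤ 1 := hs.2.trans h21
        have hgs : gfun s ≤ gfun a2 :=
          gfun_monotoneOn ⟨hs0, hs1⟩ ⟨hs0.trans hs.2, h21⟩ hs.2
        have hp := phi_pos s
        have hp0 := phi_le_phi_zero s
        unfold kfun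
        unfold gfun at hgs hg2
        have e1 : phi s * (c - 2 * s * phi s) ≥ phi s * (c - 2 * a2 * phi a2) :=
          mul_le_mul_of_nonneg_left (by linarith) hp.le
        have e2 : phi s * (2 * a2 * phi a2 - c) ≤ phi 0 * (2 * a2 * phi a2 - c) :=
          mul_le_mul_of_nonneg_right hp0 (by linarith)
        unfold gfun
        linarith
      rw [intervalIntegral.integral_const, smul_eq_mul] at h3
      have h4 : (a2 - u) * (phi 0 * (gfun a2 - c)) ≤ (a2 - a1) * (phi 0 * (gfun a2 - c)) :=
        mul_le_mul_of_nonneg_right (by linarith)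
          (mul_nonneg (phi_pos 0).le (by linarith))
      linarith
    linarith
  rcases le_total a2 t with h2t | h2t
  · exact tail_ineq_of_start c a2 (h0.trans h12) (Or.inr hg2) (by linarith) h2t
  · rcases le_total a1 t with h1t | h1t
    · exact mid t h1t h2t
    · have h := key_split c h1t
      have hmid := mid a1 (le_refl _) h12
      have h2 : 0 ≤ ∫ s in t..a1, kfun c s := by
        apply intervalIntegral.integral_nonneg h1t
        intro s hs
        apply kfun_nonneg_of
        have hs0 : 0 ≤ s := ht.trans hs.1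
        have := gfun_monotoneOn ⟨hs0, hs.2.trans (h12.trans h21)⟩ ⟨h0, h12.trans h21⟩ hs.2
        linarith
      linarith

end Vale.Agent.Lib.P226
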