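import Mathlib
import Vale.Agent.Lib.P226.Quantile

namespace Vale.Agent.Lib.P226

open MeasureTheory ProbabilityTheory Set
open scoped RealInnerProductSpace

/-- The bathtub principle: among sets of given measure, an upper level set of `g` maximises
the integral of `g`. -/
theorem bathtub {Ω : Type*} [MeasurableSpace Ω] (P : Measure Ω) [IsFiniteMeasure P]
    (g : Ω → ℝ) (hg : Measurable g) (hint : Integrable g P) (A : Set Ω) (hA : MeasurableSet A)
    (t : ℝ) :
    ∫ x in A, g x ∂P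
      ≤ ∫ x in g ⁻¹' (Ioi t), g x ∂P + t * (P.real A - P.real (g ⁻¹' (Ioi t))) := by
  have hB : MeasurableSet (g ⁻¹' (Ioi t)) := hg measurableSet_Ioi
  have e1 : P.real A = ∫ x, A.indicator (fun _ => (1 : ℝ)) x ∂P := by
    rw [integral_indicator hA]
    simp
  have e2 : P.real (g ⁻¹' Ioi t) = ∫ x, (g ⁻¹' Ioi t).indicator (fun _ => (1 : ℝ)) x ∂P := by
    rw [integral_indicator hB]
    simp
  have i1 : Integrable (A.indicator (fun _ => (1 : ℝ))) P :=
    (integrable_const (1 : ℝ)).indicator hA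
  have i2 : Integrable ((g ⁻¹' Ioi t).indicator (fun _ => (1 : ℝ))) P :=
    (integrable_const (1 : ℝ)).indicator hB
  have i3 : Integrable ((g ⁻¹' Ioi t).indicator g) P := hint.indicator hB
  have i4 : Integrable (fun x => t * (A.indicator (fun _ => (1 : ℝ)) x
      - (g ⁻¹' Ioi t).indicator (fun _ => (1 : ℝ)) x)) P := (i1.sub i2).const_mul t
  have hF : ∫ x, ((g ⁻¹' Ioi t).indicator g x + t * (A.indicator (fun _ => (1 : ℝ)) x
      - (g ⁻¹' Ioi t).indicator (fun _ => (1 : ℝ)) x)) ∂P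
      = ∫ x in g ⁻¹' (Ioi t), g x ∂P + t * (P.real A - P.real (g ⁻¹' (Ioi t))) := by
    rw [integral_add i3 i4, integral_const_mul, integral_sub i1 i2,
      integral_indicator hB, ← e1, ← e2]
  rw [← hF, ← integral_indicator hA]
  apply integral_mono (hint.indicator hA) (i3.add i4)
  intro x
  by_cases hxA : x ∈ A <;> by_cases hxB : x ∈ g ⁻¹' Ioi t
  · simp [hxA, hxB]
  · have : g x ≤ t := not_lt.1 hxB
    simp [hxA, hxB, this]
  · have : t < g x := hxB
    simp [hxA, hxB]
    linarith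
  · simp [hxA, hxB]

variable {d : ℕ}

theorem map_inner_stdGaussian (e : EuclideanSpace ℝ (Fin d)) (he : ‖e‖ = 1) :
    (stdGaussian (EuclideanSpace ℝ (Fin d))).map (fun x => ⟪e, x⟫) = gaussianReal 0 1 := by
  have h := IsGaussian.map_eq_gaussianReal (μ := stdGaussian (EuclideanSpace ℝ (Fin d)))
    (innerSL ℝ e)
  rw [integral_strongDual_stdGaussian, variance_dual_stdGaussian, innerSL_apply_norm, he] at h
  have h2 : (fun x : EuclideanSpace ℝ (Fin d) => ⟪e, x⟫) = ⇑(innerSL ℝ e) := by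
    funext x
    rw [innerSL_apply_apply]
  rw [h2, h]
  simp

/-- Comparison with a half-space: the first moment of `A` in a unit direction `e`. -/
theorem inner_first_moment_le (A : Set (EuclideanSpace ℝ (Fin d))) (hA : MeasurableSet A)
    (e : EuclideanSpace ℝ (Fin d)) (he : ‖e‖ = 1) (t : ℝ) :
    ⟪e, ∫ x in A, x ∂(stdGaussian (EuclideanSpace ℝ (Fin d)))⟫
      ≤ phi t + t * ((stdGaussian (EuclideanSpace ℝ (Fin d))).real A - tail t) := by
  have hint : Integrable (fun x : EuclideanSpace ℝ (Fin d) => x)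
      (stdGaussian (EuclideanSpace ℝ (Fin d))) := IsGaussian.integrable_id
  rw [← integral_inner hint.integrableOn e]
  have hgm : Measurable (fun x : EuclideanSpace ℝ (Fin d) => ⟪e, x⟫) :=
    measurable_const.inner measurable_id
  have hgi : Integrable (fun x : EuclideanSpace ℝ (Fin d) => ⟪e, x⟫)
      (stdGaussian (EuclideanSpace ℝ (Fin d))) := hint.const_inner e
  have h := bathtub (stdGaussian (EuclideanSpace ℝ (Fin d))) (fun x => ⟪e, x⟫) hgm hgi A hA t
  have hmap := map_inner_stdGaussian e he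
  have e1 : ∫ x in (fun x : EuclideanSpace ℝ (Fin d) => ⟪e, x⟫) ⁻¹' Ioi t, ⟪e, x⟫
      ∂(stdGaussian (EuclideanSpace ℝ (Fin d))) = phi t := by
    have hsm := setIntegral_map (μ := stdGaussian (EuclideanSpace ℝ (Fin d)))
      (g := fun x : EuclideanSpace ℝ (Fin d) => ⟪e, x⟫) (f := fun s : ℝ => s)
      (measurableSet_Ioi (a := t)) measurable_id.aestronglyMeasurable hgm.aemeasurable
    rw [← integral_Ioi_id_gaussian t, ← hmap, hsm]
  have e2 : (stdGaussian (EuclideanSpace ℝ (Fin d))).real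
      ((fun x : EuclideanSpace ℝ (Fin d) => ⟪e, x⟫) ⁻¹' Ioi t) = tail t := by
    unfold tail
    rw [← hmap, map_measureReal_apply hgm measurableSet_Ioi]
  rw [e1, e2] at h
  exact h

/-- Comparison with a half-space: the norm of the first moment of `A`. -/
theorem norm_first_moment_le (A : Set (EuclideanSpace ℝ (Fin d))) (hA : MeasurableSet A)
    (hz : ∫ x in A, x ∂(stdGaussian (EuclideanSpace ℝ (Fin d))) ≠ 0) (t : ℝ) :
    ‖∫ x in A, x ∂(stdGaussian (EuclideanSpace ℝ (Fin d)))‖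
      ≤ phi t + t * ((stdGaussian (EuclideanSpace ℝ (Fin d))).real A - tail t) := by
  obtain ⟨z, hzdef⟩ : ∃ z, z = ∫ x in A, x ∂(stdGaussian (EuclideanSpace ℝ (Fin d))) :=
    ⟨_, rfl⟩
  rw [← hzdef] at hz ⊢
  have hn : 0 < ‖z‖ := norm_pos_iff.2 hz
  have h := inner_first_moment_le A hA ((‖z‖)⁻¹ • z)
    (by rw [norm_smul, norm_inv, norm_norm, inv_mul_cancel₀ hn.ne']) t
  rw [← hzdef, real_inner_smul_left, real_inner_self_eq_norm_sq] at h
  have h3 : (‖z‖)⁻¹ * ‖z‖ ^ 2 = ‖z‖ := by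
    field_simp
  rwa [h3] at h

end Vale.Agent.Lib.P226
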