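import Mathlib
import Vale.Agent.Lib.P226.Quantile

namespace Vale.Agent.Lib.P226

open MeasureTheory Set

/-- A function vanishing at `0` with nonnegative derivative on `[0, ∞)` is nonnegative
there. -/
theorem nonneg_of_deriv_nonneg (F F' : ℝ → ℝ) (hF : ∀ x, HasDerivAt F (F' x) x) (h0 : F 0 = 0)
    (hF' : ∀ x, 0 ≤ x → 0 ≤ F' x) : ∀ x, 0 ≤ x → 0 ≤ F x := by
  have hmono : MonotoneOn F (Ici 0) := by
    apply monotoneOn_of_deriv_nonneg (convex_Ici 0)
    · exact fun x _ => (hF x).continuousAt.continuousWithinAt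
    · exact fun x _ => (hF x).differentiableAt.differentiableWithinAt
    · intro x hx
      rw [interior_Ici] at hx
      rw [(hF x).deriv]
      exact hF' x (le_of_lt hx)
  intro x hx
  have := hmono (mem_Ici.2 (le_refl 0)) (mem_Ici.2 hx) hx
  rwa [h0] at this

theorem hasDerivAt_exp_neg (x : ℝ) : HasDerivAt (fun u : ℝ => Real.exp (-u)) (-Real.exp (-x)) x := by
  have h : HasDerivAt (fun u : ℝ => Real.exp (-u)) (Real.exp (-x) * -1) x :=
    (hasDerivAt_neg x).exp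
  rwa [mul_neg_one] at h

theorem exp_neg_le_two {u : ℝ} (hu : 0 ≤ u) : Real.exp (-u) ≤ 1 - u + u ^ 2 / 2 := by
  have h := nonneg_of_deriv_nonneg (fun u => 1 - u + u ^ 2 / 2 - Real.exp (-u))
    (fun u => Real.exp (-u) - (1 - u)) (fun x => ?_) (by simp) (fun x _ => ?_) u hu
  · linarith
  · have h1 : HasDerivAt (fun u : ℝ => 1 - u + u ^ 2 / 2) (0 - 1 + 2 * x / 2) x := by
      have hp : HasDerivAt (fun u : ℝ => u ^ 2) (2 * x) x := by
        simpa using hasDerivAt_pow 2 x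
      exact ((hasDerivAt_const x (1 : ℝ)).sub (hasDerivAt_id x)).add (hp.div_const 2)
    have h2 : HasDerivAt (fun u : ℝ => 1 - u + u ^ 2 / 2 - Real.exp (-u))
        (0 - 1 + 2 * x / 2 - -Real.exp (-x)) x := h1.sub (hasDerivAt_exp_neg x)
    have h3 : 0 - 1 + 2 * x / 2 - -Real.exp (-x) = Real.exp (-x) - (1 - x) := by ring
    rw [h3] at h2
    exact h2
  · have := Real.one_sub_le_exp_neg x
    linarith

theorem three_le_exp_neg {u : ℝ} (hu : 0 ≤ u) :
    1 - u + u ^ 2 / 2 - u ^ 3 / 6 ≤ Real.exp (-u) := by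
  have h := nonneg_of_deriv_nonneg (fun u => Real.exp (-u) - (1 - u + u ^ 2 / 2 - u ^ 3 / 6))
    (fun u => 1 - u + u ^ 2 / 2 - Real.exp (-u)) (fun x => ?_) (by simp) (fun x hx => ?_) u hu
  · linarith
  · have h1 : HasDerivAt (fun u : ℝ => 1 - u + u ^ 2 / 2 - u ^ 3 / 6)
        (0 - 1 + 2 * x / 2 - 3 * x ^ 2 / 6) x := by
      have hp : HasDerivAt (fun u : ℝ => u ^ 2) (2 * x) x := by
        simpa using hasDerivAt_pow 2 x
      have hp3 : HasDerivAt (fun u : ℝ => u ^ 3) (3 * x ^ 2) x := by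
        simpa using hasDerivAt_pow 3 x
      exact (((hasDerivAt_const x (1 : ℝ)).sub (hasDerivAt_id x)).add (hp.div_const 2)).sub
        (hp3.div_const 6)
    have h2 : HasDerivAt (fun u : ℝ => Real.exp (-u) - (1 - u + u ^ 2 / 2 - u ^ 3 / 6))
        (-Real.exp (-x) - (0 - 1 + 2 * x / 2 - 3 * x ^ 2 / 6)) x :=
      (hasDerivAt_exp_neg x).sub h1
    have h3 : -Real.exp (-x) - (0 - 1 + 2 * x / 2 - 3 * x ^ 2 / 6)
        = 1 - x + x ^ 2 / 2 - Real.exp (-x) := by ring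
    rw [h3] at h2
    exact h2
  · have := exp_neg_le_two hx
    linarith

theorem exp_neg_le_four {u : ℝ} (hu : 0 ≤ u) :
    Real.exp (-u) ≤ 1 - u + u ^ 2 / 2 - u ^ 3 / 6 + u ^ 4 / 24 := by
  have h := nonneg_of_deriv_nonneg
    (fun u => 1 - u + u ^ 2 / 2 - u ^ 3 / 6 + u ^ 4 / 24 - Real.exp (-u))
    (fun u => Real.exp (-u) - (1 - u + u ^ 2 / 2 - u ^ 3 / 6)) (fun x => ?_) (by simp)
    (fun x hx => ?_) u hu
  · linarith
  · have h1 : HasDerivAt (fun u : ℝ => 1 - u + u ^ 2 / 2 - u ^ 3 / 6 + u ^ 4 / 24)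
        (0 - 1 + 2 * x / 2 - 3 * x ^ 2 / 6 + 4 * x ^ 3 / 24) x := by
      have hp : HasDerivAt (fun u : ℝ => u ^ 2) (2 * x) x := by
        simpa using hasDerivAt_pow 2 x
      have hp3 : HasDerivAt (fun u : ℝ => u ^ 3) (3 * x ^ 2) x := by
        simpa using hasDerivAt_pow 3 x
      have hp4 : HasDerivAt (fun u : ℝ => u ^ 4) (4 * x ^ 3) x := by
        simpa using hasDerivAt_pow 4 x
      exact ((((hasDerivAt_const x (1 : ℝ)).sub (hasDerivAt_id x)).add (hp.div_const 2)).sub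
        (hp3.div_const 6)).add (hp4.div_const 24)
    have h2 : HasDerivAt
        (fun u : ℝ => 1 - u + u ^ 2 / 2 - u ^ 3 / 6 + u ^ 4 / 24 - Real.exp (-u))
        (0 - 1 + 2 * x / 2 - 3 * x ^ 2 / 6 + 4 * x ^ 3 / 24 - -Real.exp (-x)) x :=
      h1.sub (hasDerivAt_exp_neg x)
    have h3 : 0 - 1 + 2 * x / 2 - 3 * x ^ 2 / 6 + 4 * x ^ 3 / 24 - -Real.exp (-x)
        = Real.exp (-x) - (1 - x + x ^ 2 / 2 - x ^ 3 / 6) := by ring
    rw [h3] at h2
    exact h2
  · have := three_le_exp_neg hx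
    linarith

end Vale.Agent.Lib.P226
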