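import Mathlib
import Vale.Agent.Lib.P226.ExpBounds

namespace Vale.Agent.Lib.P226

open MeasureTheory Set

theorem sqrt_two_pi_lower : (25066 : ℝ) / 10000 ≤ Real.sqrt (2 * Real.pi) := by
  apply Real.le_sqrt_of_sq_le
  have := Real.pi_gt_d6
  norm_num at this ⊢
  linarith

theorem sqrt_two_pi_upper : Real.sqrt (2 * Real.pi) ≤ (25067 : ℝ) / 10000 := by
  rw [Real.sqrt_le_left (by norm_num)]
  have := Real.pi_lt_d6
  norm_num at this ⊢
  linarith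

theorem continuous_expfun : Continuous (fun x : ℝ => Real.exp (-(x ^ 2) / 2)) := by
  fun_prop

theorem integral_exp_le_two {a : ℝ} (ha : 0 ≤ a) :
    ∫ x in (0 : ℝ)..a, Real.exp (-(x ^ 2) / 2) ≤ a - a ^ 3 / 6 + a ^ 5 / 40 := by
  have h := nonneg_of_deriv_nonneg
    (fun a => a - a ^ 3 / 6 + a ^ 5 / 40 - ∫ x in (0 : ℝ)..a, Real.exp (-(x ^ 2) / 2))
    (fun a => 1 - a ^ 2 / 2 + a ^ 4 / 8 - Real.exp (-(a ^ 2) / 2)) (fun x => ?_) (by simp)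
    (fun x _ => ?_) a ha
  · linarith
  · have h1 : HasDerivAt (fun a : ℝ => a - a ^ 3 / 6 + a ^ 5 / 40)
        (1 - 3 * x ^ 2 / 6 + 5 * x ^ 4 / 40) x := by
      have hp3 : HasDerivAt (fun u : ℝ => u ^ 3) (3 * x ^ 2) x := by
        simpa using hasDerivAt_pow 3 x
      have hp5 : HasDerivAt (fun u : ℝ => u ^ 5) (5 * x ^ 4) x := by
        simpa using hasDerivAt_pow 5 x
      exact ((hasDerivAt_id x).sub (hp3.div_const 6)).add (hp5.div_const 40)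
    have h2 : HasDerivAt (fun a : ℝ => ∫ x in (0 : ℝ)..a, Real.exp (-(x ^ 2) / 2))
        (Real.exp (-(x ^ 2) / 2)) x :=
      (continuous_expfun.integral_hasStrictDerivAt 0 x).hasDerivAt
    have h3 : HasDerivAt
        (fun a : ℝ => a - a ^ 3 / 6 + a ^ 5 / 40 - ∫ x in (0 : ℝ)..a, Real.exp (-(x ^ 2) / 2))
        (1 - 3 * x ^ 2 / 6 + 5 * x ^ 4 / 40 - Real.exp (-(x ^ 2) / 2)) x := h1.sub h2
    have h4 : 1 - 3 * x ^ 2 / 6 + 5 * x ^ 4 / 40 - Real.exp (-(x ^ 2) / 2)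
        = 1 - x ^ 2 / 2 + x ^ 4 / 8 - Real.exp (-(x ^ 2) / 2) := by ring
    rw [h4] at h3
    exact h3
  · have h5 := exp_neg_le_two (u := x ^ 2 / 2) (by positivity)
    have h6 : -(x ^ 2 / 2) = -(x ^ 2) / 2 := by ring
    rw [h6] at h5
    have h7 : 1 - x ^ 2 / 2 + (x ^ 2 / 2) ^ 2 / 2 = 1 - x ^ 2 / 2 + x ^ 4 / 8 := by ring
    linarith

theorem integral_exp_le_four {a : ℝ} (ha : 0 ≤ a) :
    ∫ x in (0 : ℝ)..a, Real.exp (-(x ^ 2) / 2)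
      ≤ a - a ^ 3 / 6 + a ^ 5 / 40 - a ^ 7 / 336 + a ^ 9 / 3456 := by
  have h := nonneg_of_deriv_nonneg
    (fun a => a - a ^ 3 / 6 + a ^ 5 / 40 - a ^ 7 / 336 + a ^ 9 / 3456
      - ∫ x in (0 : ℝ)..a, Real.exp (-(x ^ 2) / 2))
    (fun a => 1 - a ^ 2 / 2 + a ^ 4 / 8 - a ^ 6 / 48 + a ^ 8 / 384 - Real.exp (-(a ^ 2) / 2))
    (fun x => ?_) (by simp) (fun x _ => ?_) a ha
  · linarith
  · have h1 : HasDerivAt (fun a : ℝ => a - a ^ 3 / 6 + a ^ 5 / 40 - a ^ 7 / 336 + a ^ 9 / 3456)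
        (1 - 3 * x ^ 2 / 6 + 5 * x ^ 4 / 40 - 7 * x ^ 6 / 336 + 9 * x ^ 8 / 3456) x := by
      have hp3 : HasDerivAt (fun u : ℝ => u ^ 3) (3 * x ^ 2) x := by
        simpa using hasDerivAt_pow 3 x
      have hp5 : HasDerivAt (fun u : ℝ => u ^ 5) (5 * x ^ 4) x := by
        simpa using hasDerivAt_pow 5 x
      have hp7 : HasDerivAt (fun u : ℝ => u ^ 7) (7 * x ^ 6) x := by
        simpa using hasDerivAt_pow 7 x
      have hp9 : HasDerivAt (fun u : ℝ => u ^ 9) (9 * x ^ 8) x := by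
        simpa using hasDerivAt_pow 9 x
      exact ((((hasDerivAt_id x).sub (hp3.div_const 6)).add (hp5.div_const 40)).sub
        (hp7.div_const 336)).add (hp9.div_const 3456)
    have h2 : HasDerivAt (fun a : ℝ => ∫ x in (0 : ℝ)..a, Real.exp (-(x ^ 2) / 2))
        (Real.exp (-(x ^ 2) / 2)) x :=
      (continuous_expfun.integral_hasStrictDerivAt 0 x).hasDerivAt
    have h3 : HasDerivAt
        (fun a : ℝ => a - a ^ 3 / 6 + a ^ 5 / 40 - a ^ 7 / 336 + a ^ 9 / 3456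
          - ∫ x in (0 : ℝ)..a, Real.exp (-(x ^ 2) / 2))
        (1 - 3 * x ^ 2 / 6 + 5 * x ^ 4 / 40 - 7 * x ^ 6 / 336 + 9 * x ^ 8 / 3456
          - Real.exp (-(x ^ 2) / 2)) x := h1.sub h2
    have h4 : 1 - 3 * x ^ 2 / 6 + 5 * x ^ 4 / 40 - 7 * x ^ 6 / 336 + 9 * x ^ 8 / 3456
          - Real.exp (-(x ^ 2) / 2)
        = 1 - x ^ 2 / 2 + x ^ 4 / 8 - x ^ 6 / 48 + x ^ 8 / 384 - Real.exp (-(x ^ 2) / 2) := by
      ring
    rw [h4] at h3
    exact h3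
  · have h5 := exp_neg_le_four (u := x ^ 2 / 2) (by positivity)
    have h6 : -(x ^ 2 / 2) = -(x ^ 2) / 2 := by ring
    rw [h6] at h5
    have h7 : 1 - x ^ 2 / 2 + (x ^ 2 / 2) ^ 2 / 2 - (x ^ 2 / 2) ^ 3 / 6 + (x ^ 2 / 2) ^ 4 / 24
        = 1 - x ^ 2 / 2 + x ^ 4 / 8 - x ^ 6 / 48 + x ^ 8 / 384 := by ring
    linarith

/-- Lower bound for the tail from an upper bound of the Gaussian integral. -/
theorem tail_ge_of {a Pa : ℝ} (ha : 0 ≤ a)
    (hP : ∫ x in (0 : ℝ)..a, Real.exp (-(x ^ 2) / 2) ≤ Pa) :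
    1 / 2 - Pa / (25066 / 10000) ≤ tail a := by
  have h1 := tail_sub 0 a
  rw [tail_zero] at h1
  have h2 : ∫ s in (0 : ℝ)..a, phi s
      = (∫ x in (0 : ℝ)..a, Real.exp (-(x ^ 2) / 2)) / Real.sqrt (2 * Real.pi) := by
    rw [← intervalIntegral.integral_div]
    rfl
  rw [h2] at h1
  have h3 : 0 ≤ ∫ x in (0 : ℝ)..a, Real.exp (-(x ^ 2) / 2) :=
    intervalIntegral.integral_nonneg ha (fun x _ => (Real.exp_pos _).le)
  have hS := sqrt_two_pi_lower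
  have hSpos := sqrt_two_pi_pos
  have h4 : (∫ x in (0 : ℝ)..a, Real.exp (-(x ^ 2) / 2)) / Real.sqrt (2 * Real.pi)
      ≤ Pa / (25066 / 10000) := by
    apply div_le_div₀ (h3.trans hP) hP (by norm_num) hS
  linarith

theorem phi_le_of {t E : ℝ} (hE : Real.exp (-(t ^ 2) / 2) ≤ E) :
    phi t ≤ E / (25066 / 10000) := by
  unfold phi
  exact div_le_div₀ ((Real.exp_pos _).le.trans hE) hE (by norm_num) sqrt_two_pi_lower

theorem le_phi_of {t E : ℝ} (hE : E ≤ Real.exp (-(t ^ 2) / 2)) :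
    E / (25067 / 10000) ≤ phi t := by
  unfold phi
  exact div_le_div₀ (Real.exp_pos _).le hE sqrt_two_pi_pos sqrt_two_pi_upper

end Vale.Agent.Lib.P226
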