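import Mathlib
import Vale.Agent.Lib.P226.Numerics

namespace Vale.Agent.Lib.P226

open MeasureTheory Set

theorem tail_ge_eighth : (1 : ℝ) / 8 ≤ tail (57 / 50) := by
  have h := tail_ge_of (a := 57 / 50) (by norm_num) (integral_exp_le_four (by norm_num))
  refine le_trans ?_ h
  norm_num

theorem exp_bound_a : Real.exp (-((57 / 50 : ℝ) ^ 2)) ≤ 9 / 32 := by
  have h := exp_neg_le_four (u := (3249 / 5000 : ℝ)) (by norm_num)
  have hE : (1 - 3249 / 5000 + (3249 / 5000) ^ 2 / 2 - (3249 / 5000) ^ 3 / 6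
      + (3249 / 5000) ^ 4 / 24 : ℝ) ≤ 5231 / 10000 := by norm_num
  have h1 : Real.exp (-(3249 / 5000 : ℝ)) ≤ 5231 / 10000 := h.trans hE
  have hpos := Real.exp_pos (-(3249 / 5000 : ℝ))
  have h2 : Real.exp (-((57 / 50 : ℝ) ^ 2))
      = Real.exp (-(3249 / 5000 : ℝ)) * Real.exp (-(3249 / 5000 : ℝ)) := by
    rw [← Real.exp_add]
    congr 1
    norm_num
  rw [h2]
  have h3 : Real.exp (-(3249 / 5000 : ℝ)) * Real.exp (-(3249 / 5000 : ℝ))
      ≤ 5231 / 10000 * (5231 / 10000) := mul_le_mul h1 h1 hpos.le (by norm_num)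
  refine h3.trans ?_
  norm_num

theorem phi_sq_a : phi (57 / 50) ^ 2 ≤ 9 / (8 * Real.pi) * (1 / 8) := by
  rw [phi_sq]
  have hpi := Real.pi_pos
  calc Real.exp (-((57 / 50 : ℝ) ^ 2)) / (2 * Real.pi) ≤ (9 / 32) / (2 * Real.pi) :=
        div_le_div_of_nonneg_right exp_bound_a (by positivity)
    _ = 9 / (8 * Real.pi) * (1 / 8) := by
        field_simp
        ring

/-- The propeller constant tail inequality beyond `57 / 50`. -/
theorem tail_ineq_small {t : ℝ} (ht : 57 / 50 ≤ t) :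
    phi t ^ 2 ≤ 9 / (8 * Real.pi) * tail t := by
  have hc : (0 : ℝ) ≤ 9 / (8 * Real.pi) := by positivity
  have hstart : phi (57 / 50) ^ 2 ≤ 9 / (8 * Real.pi) * tail (57 / 50) :=
    phi_sq_a.trans (mul_le_mul_of_nonneg_left tail_ge_eighth hc)
  exact tail_ineq_of_start _ (57 / 50) (by norm_num) (Or.inl (by norm_num)) hstart ht

theorem tail_ge_seventh_aux : (1 : ℝ) / 2 - ((213 / 200 : ℝ) - (213 / 200) ^ 3 / 6
    + (213 / 200) ^ 5 / 40 - (213 / 200) ^ 7 / 336 + (213 / 200) ^ 9 / 3456) / (25066 / 10000)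
    ≤ tail (213 / 200) :=
  tail_ge_of (a := 213 / 200) (by norm_num) (integral_exp_le_four (by norm_num))

theorem tail_ge_seventh : (1 : ℝ) / 7 ≤ tail (213 / 200) := by
  refine le_trans ?_ tail_ge_seventh_aux
  norm_num

theorem exp_bound_b : Real.exp (-((213 / 200 : ℝ) ^ 2))
    ≤ 9 / 4 * (1 / 2 - ((213 / 200 : ℝ) - (213 / 200) ^ 3 / 6
      + (213 / 200) ^ 5 / 40 - (213 / 200) ^ 7 / 336 + (213 / 200) ^ 9 / 3456)
      / (25066 / 10000)) := by
  have h := exp_neg_le_four (u := (45369 / 80000 : ℝ)) (by norm_num)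
  have hE : (1 - 45369 / 80000 + (45369 / 80000) ^ 2 / 2 - (45369 / 80000) ^ 3 / 6
      + (45369 / 80000) ^ 4 / 24 : ℝ) ≤ 56761 / 100000 := by norm_num
  have h1 : Real.exp (-(45369 / 80000 : ℝ)) ≤ 56761 / 100000 := h.trans hE
  have hpos := Real.exp_pos (-(45369 / 80000 : ℝ))
  have h2 : Real.exp (-((213 / 200 : ℝ) ^ 2))
      = Real.exp (-(45369 / 80000 : ℝ)) * Real.exp (-(45369 / 80000 : ℝ)) := by
    rw [← Real.exp_add]
    congr 1
    norm_num
  rw [h2]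
  have h3 : Real.exp (-(45369 / 80000 : ℝ)) * Real.exp (-(45369 / 80000 : ℝ))
      ≤ 56761 / 100000 * (56761 / 100000) := mul_le_mul h1 h1 hpos.le (by norm_num)
  refine h3.trans ?_
  norm_num

theorem start_small7 : phi (213 / 200) ^ 2 ≤ 9 / (8 * Real.pi) * tail (213 / 200) := by
  rw [phi_sq]
  have hpi := Real.pi_pos
  have hc : (0 : ℝ) ≤ 9 / (8 * Real.pi) := by positivity
  obtain ⟨L, hL⟩ : ∃ L : ℝ, L = 1 / 2 - ((213 / 200 : ℝ) - (213 / 200) ^ 3 / 6
      + (213 / 200) ^ 5 / 40 - (213 / 200) ^ 7 / 336 + (213 / 200) ^ 9 / 3456)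
      / (25066 / 10000) := ⟨_, rfl⟩
  have h1 : Real.exp (-((213 / 200 : ℝ) ^ 2)) ≤ 9 / 4 * L := by
    rw [hL]; exact exp_bound_b
  have h2 : L ≤ tail (213 / 200) := by
    rw [hL]; exact tail_ge_seventh_aux
  calc Real.exp (-((213 / 200 : ℝ) ^ 2)) / (2 * Real.pi) ≤ (9 / 4 * L) / (2 * Real.pi) :=
        div_le_div_of_nonneg_right h1 (by positivity)
    _ = 9 / (8 * Real.pi) * L := by
        field_simp
        ring
    _ ≤ 9 / (8 * Real.pi) * tail (213 / 200) := mul_le_mul_of_nonneg_left h2 hc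

/-- The propeller constant tail inequality beyond `213 / 200`. -/
theorem tail_ineq_small7 {t : ℝ} (ht : 213 / 200 ≤ t) :
    phi t ^ 2 ≤ 9 / (8 * Real.pi) * tail t :=
  tail_ineq_of_start _ (213 / 200) (by norm_num) (Or.inl (by norm_num)) start_small7 ht

theorem gfun_a1 : gfun (31 / 50) ≤ 41 / 100 := by
  have h := exp_neg_le_two (u := (961 / 5000 : ℝ)) (by norm_num)
  have h1 : -((31 / 50 : ℝ) ^ 2) / 2 = -(961 / 5000) := by norm_num
  have h2 : Real.exp (-((31 / 50 : ℝ) ^ 2) / 2) ≤ 1 - 961 / 5000 + (961 / 5000) ^ 2 / 2 := by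
    rw [h1]; exact h
  have h3 := phi_le_of h2
  unfold gfun
  have h4 : 2 * (31 / 50 : ℝ) * phi (31 / 50)
      ≤ 2 * (31 / 50) * ((1 - 961 / 5000 + (961 / 5000) ^ 2 / 2) / (25066 / 10000)) :=
    mul_le_mul_of_nonneg_left h3 (by norm_num)
  refine h4.trans ?_
  norm_num

theorem gfun_a2 : (41 : ℝ) / 100 ≤ gfun (63 / 100) := by
  have h := three_le_exp_neg (u := (3969 / 20000 : ℝ)) (by norm_num)
  have h1 : -((63 / 100 : ℝ) ^ 2) / 2 = -(3969 / 20000) := by norm_num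
  have h2 : 1 - 3969 / 20000 + (3969 / 20000) ^ 2 / 2 - (3969 / 20000) ^ 3 / 6
      ≤ Real.exp (-((63 / 100 : ℝ) ^ 2) / 2) := by
    rw [h1]; exact h
  have h3 := le_phi_of h2
  unfold gfun
  have h4 : 2 * (63 / 100 : ℝ) * ((1 - 3969 / 20000 + (3969 / 20000) ^ 2 / 2
      - (3969 / 20000) ^ 3 / 6) / (25067 / 10000)) ≤ 2 * (63 / 100) * phi (63 / 100) :=
    mul_le_mul_of_nonneg_left h3 (by norm_num)
  refine le_trans ?_ h4
  norm_num

theorem phi_zero_le : phi 0 ≤ 2 / 5 := by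
  have h : Real.exp (-((0 : ℝ) ^ 2) / 2) ≤ 1 := by simp
  have h3 := phi_le_of h
  refine h3.trans ?_
  norm_num

theorem start_universal :
    phi (63 / 100) ^ 2 + (63 / 100 - 31 / 50) * phi 0 * (gfun (63 / 100) - 41 / 100)
      ≤ 41 / 100 * tail (63 / 100) := by
  have h := exp_neg_le_two (u := (3969 / 20000 : ℝ)) (by norm_num)
  have h1 : -((63 / 100 : ℝ) ^ 2) / 2 = -(3969 / 20000) := by norm_num
  have h2 : Real.exp (-((63 / 100 : ℝ) ^ 2) / 2)
      ≤ 1 - 3969 / 20000 + (3969 / 20000) ^ 2 / 2 := by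
    rw [h1]; exact h
  have hU := phi_le_of h2
  obtain ⟨U, hUdef⟩ : ∃ U : ℝ,
      U = (1 - 3969 / 20000 + (3969 / 20000) ^ 2 / 2) / (25066 / 10000) := ⟨_, rfl⟩
  rw [← hUdef] at hU
  have hp := phi_pos (63 / 100)
  have hL := tail_ge_of (a := 63 / 100) (by norm_num) (integral_exp_le_two (by norm_num))
  have hg := gfun_a2
  have hgU : gfun (63 / 100) ≤ 126 / 100 * U := by
    unfold gfun
    have : 2 * (63 / 100 : ℝ) * phi (63 / 100) ≤ 2 * (63 / 100) * U :=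
      mul_le_mul_of_nonneg_left hU (by norm_num)
    linarith
  have hsq : phi (63 / 100) ^ 2 ≤ U ^ 2 := pow_le_pow_left₀ hp.le hU 2
  have h0 := phi_zero_le
  have h0pos := phi_pos 0
  have hprod : (63 / 100 - 31 / 50 : ℝ) * phi 0 * (gfun (63 / 100) - 41 / 100)
      ≤ (1 / 100) * (2 / 5) * (126 / 100 * U - 41 / 100) := by
    have e1 : (63 / 100 - 31 / 50 : ℝ) * phi 0 ≤ (1 / 100) * (2 / 5) := by
      have : (63 / 100 - 31 / 50 : ℝ) = 1 / 100 := by norm_num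
      rw [this]
      exact mul_le_mul_of_nonneg_left h0 (by norm_num)
    exact mul_le_mul e1 (by linarith) (by linarith) (by norm_num)
  have hfinal : U ^ 2 + (1 / 100) * (2 / 5) * (126 / 100 * U - 41 / 100)
      ≤ 41 / 100 * (1 / 2 - ((63 / 100 : ℝ) - (63 / 100) ^ 3 / 6 + (63 / 100) ^ 5 / 40)
        / (25066 / 10000)) := by
    rw [hUdef]
    norm_num
  have hLc : (41 : ℝ) / 100 * (1 / 2 - ((63 / 100 : ℝ) - (63 / 100) ^ 3 / 6
      + (63 / 100) ^ 5 / 40) / (25066 / 10000)) ≤ 41 / 100 * tail (63 / 100) :=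
    mul_le_mul_of_nonneg_left hL (by norm_num)
  linarith

/-- The universal tail inequality with constant `41 / 100`. -/
theorem tail_ineq_univ {t : ℝ} (ht : 0 ≤ t) : phi t ^ 2 ≤ 41 / 100 * tail t :=
  tail_ineq_universal (41 / 100) (31 / 50) (63 / 100) (by norm_num) (by norm_num)
    (by norm_num) gfun_a1 gfun_a2 start_universal ht

end Vale.Agent.Lib.P226
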