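import Mathlib
import Vale.Agent.Lib.P226.Bathtub
import Vale.Agent.Lib.P226.Constants

namespace Vale.Agent.Lib.P226

open MeasureTheory ProbabilityTheory Set

variable {d : ℕ}

/-- Abstract cell bound: a tail inequality `phi t ^ 2 ≤ c * tail t` beyond `a` bounds the
squared first moment of every set of measure at most `tail a` by `c` times its measure. -/
theorem cell_bound (c a : ℝ) (hc : 0 ≤ c) (hT : ∀ t, a ≤ t → phi t ^ 2 ≤ c * tail t)
    (A : Set (EuclideanSpace ℝ (Fin d))) (hA : MeasurableSet A)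
    (hsmall : (stdGaussian (EuclideanSpace ℝ (Fin d))).real A ≤ tail a) :
    ‖∫ x in A, x ∂(stdGaussian (EuclideanSpace ℝ (Fin d)))‖ ^ 2
      ≤ c * (stdGaussian (EuclideanSpace ℝ (Fin d))).real A := by
  by_cases hz : ∫ x in A, x ∂(stdGaussian (EuclideanSpace ℝ (Fin d))) = 0
  · rw [hz, norm_zero]
    have : (0 : ℝ) ≤ c * (stdGaussian (EuclideanSpace ℝ (Fin d))).real A :=
      mul_nonneg hc measureReal_nonneg
    simpa using this
  · have hpos : 0 < (stdGaussian (EuclideanSpace ℝ (Fin d))).real A := by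
      by_contra hcon
      have h0 : (stdGaussian (EuclideanSpace ℝ (Fin d))).real A = 0 :=
        le_antisymm (not_lt.1 hcon) measureReal_nonneg
      have h1 : (stdGaussian (EuclideanSpace ℝ (Fin d))) A = 0 :=
        (measureReal_eq_zero_iff).1 h0
      exact hz (setIntegral_measure_zero _ h1)
    obtain ⟨t, hat, ht⟩ := exists_quantile hpos hsmall
    have h := norm_first_moment_le A hA hz t
    rw [ht, sub_self, mul_zero, add_zero] at h
    calc ‖∫ x in A, x ∂(stdGaussian (EuclideanSpace ℝ (Fin d)))‖ ^ 2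
        ≤ phi t ^ 2 := pow_le_pow_left₀ (norm_nonneg _) h 2
      _ ≤ c * tail t := hT t hat
      _ = c * (stdGaussian (EuclideanSpace ℝ (Fin d))).real A := by rw [ht]

theorem sum_measure_le_one {k : ℕ} (A : Fin k → Set (EuclideanSpace ℝ (Fin d)))
    (hA : ∀ i, MeasurableSet (A i)) (hdisj : ∀ i j, i ≠ j → Disjoint (A i) (A j)) :
    ∑ i, (stdGaussian (EuclideanSpace ℝ (Fin d))).real (A i) ≤ 1 := by
  have hd : Pairwise (Function.onFun Disjoint A) := fun i j hij => hdisj i j hij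
  rw [← measureReal_iUnion_fintype hd hA]
  exact measureReal_le_one

/-- The first moment of any measurable set has norm at most `phi 0`. -/
theorem norm_first_moment_le_phi_zero (A : Set (EuclideanSpace ℝ (Fin d))) (hA : MeasurableSet A) :
    ‖∫ x in A, x ∂(stdGaussian (EuclideanSpace ℝ (Fin d)))‖ ≤ phi 0 := by
  by_cases hz : ∫ x in A, x ∂(stdGaussian (EuclideanSpace ℝ (Fin d))) = 0
  · rw [hz, norm_zero]
    exact (phi_pos 0).le
  · have h := norm_first_moment_le A hA hz 0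
    rw [zero_mul, add_zero] at h
    exact h

/-- Cell bound for cells of measure at least `4 / 9`. -/
theorem cell_bound_big (A : Set (EuclideanSpace ℝ (Fin d))) (hA : MeasurableSet A)
    (hbig : 4 / 9 ≤ (stdGaussian (EuclideanSpace ℝ (Fin d))).real A) :
    ‖∫ x in A, x ∂(stdGaussian (EuclideanSpace ℝ (Fin d)))‖ ^ 2
      ≤ 9 / (8 * Real.pi) * (stdGaussian (EuclideanSpace ℝ (Fin d))).real A := by
  have h := norm_first_moment_le_phi_zero A hA
  have h2 : ‖∫ x in A, x ∂(stdGaussian (EuclideanSpace ℝ (Fin d)))‖ ^ 2 ≤ phi 0 ^ 2 :=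
    pow_le_pow_left₀ (norm_nonneg _) h 2
  have hpi := Real.pi_pos
  have hc : (0 : ℝ) ≤ 9 / (8 * Real.pi) := by positivity
  have h3 : phi 0 ^ 2 = 9 / (8 * Real.pi) * (4 / 9) := by
    rw [phi_sq]
    simp only [ne_eq, OfNat.ofNat_ne_zero, not_false_eq_true, zero_pow, neg_zero, Real.exp_zero]
    field_simp
    ring
  calc ‖∫ x in A, x ∂(stdGaussian (EuclideanSpace ℝ (Fin d)))‖ ^ 2 ≤ phi 0 ^ 2 := h2
    _ = 9 / (8 * Real.pi) * (4 / 9) := h3
    _ ≤ 9 / (8 * Real.pi) * (stdGaussian (EuclideanSpace ℝ (Fin d))).real A :=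
        mul_le_mul_of_nonneg_left hbig hc

/-- The propeller inequality for families of pairwise disjoint sets each of which has
measure at most `1 / 7` or at least `4 / 9`. -/
theorem small_cells (k : ℕ) (A : Fin k → Set (EuclideanSpace ℝ (Fin d)))
    (hA : ∀ i, MeasurableSet (A i)) (hdisj : ∀ i j, i ≠ j → Disjoint (A i) (A j))
    (hsmall : ∀ i, (stdGaussian (EuclideanSpace ℝ (Fin d))).real (A i) ≤ 1 / 7 ∨
      4 / 9 ≤ (stdGaussian (EuclideanSpace ℝ (Fin d))).real (A i)) :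
    ∑ i, ‖∫ x in A i, x ∂(stdGaussian (EuclideanSpace ℝ (Fin d)))‖ ^ 2
      ≤ 9 / (8 * Real.pi) := by
  have hc : (0 : ℝ) ≤ 9 / (8 * Real.pi) := by positivity
  have h1 : ∀ i, ‖∫ x in A i, x ∂(stdGaussian (EuclideanSpace ℝ (Fin d)))‖ ^ 2
      ≤ 9 / (8 * Real.pi) * (stdGaussian (EuclideanSpace ℝ (Fin d))).real (A i) := fun i => by
    rcases hsmall i with h | h
    · exact cell_bound _ (213 / 200) hc (fun t ht => tail_ineq_small7 ht) (A i) (hA i)
        (h.trans tail_ge_seventh)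
    · exact cell_bound_big (A i) (hA i) h
  calc ∑ i, ‖∫ x in A i, x ∂(stdGaussian (EuclideanSpace ℝ (Fin d)))‖ ^ 2
      ≤ ∑ i, 9 / (8 * Real.pi) * (stdGaussian (EuclideanSpace ℝ (Fin d))).real (A i) :=
        Finset.sum_le_sum (fun i _ => h1 i)
    _ = 9 / (8 * Real.pi) * ∑ i, (stdGaussian (EuclideanSpace ℝ (Fin d))).real (A i) := by
        rw [Finset.mul_sum]
    _ ≤ 9 / (8 * Real.pi) * 1 := mul_le_mul_of_nonneg_left (sum_measure_le_one A hA hdisj) hc
    _ = 9 / (8 * Real.pi) := mul_one _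

/-- Universal cell bound with constant `41 / 100`. -/
theorem cell_bound_univ (A : Set (EuclideanSpace ℝ (Fin d))) (hA : MeasurableSet A) :
    ‖∫ x in A, x ∂(stdGaussian (EuclideanSpace ℝ (Fin d)))‖ ^ 2
      ≤ 41 / 100 * (stdGaussian (EuclideanSpace ℝ (Fin d))).real A := by
  by_cases hhalf : (stdGaussian (EuclideanSpace ℝ (Fin d))).real A ≤ 1 / 2
  · exact cell_bound _ 0 (by norm_num) (fun t ht => tail_ineq_univ ht) A hA
      (by rw [tail_zero]; exact hhalf)
  · rw [not_le] at hhalf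
    by_cases hz : ∫ x in A, x ∂(stdGaussian (EuclideanSpace ℝ (Fin d))) = 0
    · rw [hz, norm_zero]
      have : (0 : ℝ) ≤ 41 / 100 * (stdGaussian (EuclideanSpace ℝ (Fin d))).real A :=
        mul_nonneg (by norm_num) measureReal_nonneg
      have e : (0 : ℝ) ^ 2 = 0 := by norm_num
      rw [e]
      exact this
    · have h := norm_first_moment_le A hA hz 0
      rw [zero_mul, add_zero] at h
      have h2 : ‖∫ x in A, x ∂(stdGaussian (EuclideanSpace ℝ (Fin d)))‖ ≤ 2 / 5 :=
        h.trans phi_zero_le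
      have h3 : ‖∫ x in A, x ∂(stdGaussian (EuclideanSpace ℝ (Fin d)))‖ ^ 2 ≤ (2 / 5) ^ 2 :=
        pow_le_pow_left₀ (norm_nonneg _) h2 2
      have h4 : (41 : ℝ) / 100 * (1 / 2)
          ≤ 41 / 100 * (stdGaussian (EuclideanSpace ℝ (Fin d))).real A :=
        mul_le_mul_of_nonneg_left hhalf.le (by norm_num)
      have h5 : ((2 : ℝ) / 5) ^ 2 ≤ 41 / 100 * (1 / 2) := by norm_num
      linarith

/-- A universal bound for the sum of squared first moments of pairwise disjoint sets. -/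
theorem universal_bound (k : ℕ) (A : Fin k → Set (EuclideanSpace ℝ (Fin d)))
    (hA : ∀ i, MeasurableSet (A i)) (hdisj : ∀ i j, i ≠ j → Disjoint (A i) (A j)) :
    ∑ i, ‖∫ x in A i, x ∂(stdGaussian (EuclideanSpace ℝ (Fin d)))‖ ^ 2 ≤ 41 / 100 := by
  calc ∑ i, ‖∫ x in A i, x ∂(stdGaussian (EuclideanSpace ℝ (Fin d)))‖ ^ 2
      ≤ ∑ i, 41 / 100 * (stdGaussian (EuclideanSpace ℝ (Fin d))).real (A i) :=
        Finset.sum_le_sum (fun i _ => cell_bound_univ (A i) (hA i))
    _ = 41 / 100 * ∑ i, (stdGaussian (EuclideanSpace ℝ (Fin d))).real (A i) := by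
        rw [Finset.mul_sum]
    _ ≤ 41 / 100 * 1 :=
        mul_le_mul_of_nonneg_left (sum_measure_le_one A hA hdisj) (by norm_num)
    _ = 41 / 100 := mul_one _

end Vale.Agent.Lib.P226
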