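import Mathlib
import Vale.Agent.Lib.P226.Main

namespace Vale.Agent.Lib.P226

open MeasureTheory ProbabilityTheory Set

variable {d : ℕ}

/-- The standard Gaussian measure is invariant under the reflection `x ↦ -x`. -/
theorem map_neg_stdGaussian :
    (stdGaussian (EuclideanSpace ℝ (Fin d))).map (fun x => -x)
      = stdGaussian (EuclideanSpace ℝ (Fin d)) := by
  have h := stdGaussian_map (E := EuclideanSpace ℝ (Fin d))
    (LinearIsometryEquiv.neg ℝ (E := EuclideanSpace ℝ (Fin d)))
  rw [LinearIsometryEquiv.coe_neg] at h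
  exact h

/-- The first moment of the reflected set is minus the first moment. -/
theorem first_moment_neg (A : Set (EuclideanSpace ℝ (Fin d))) (hA : MeasurableSet A) :
    ∫ x in {x | -x ∈ A}, x ∂(stdGaussian (EuclideanSpace ℝ (Fin d)))
      = -∫ x in A, x ∂(stdGaussian (EuclideanSpace ℝ (Fin d))) := by
  have hsm := setIntegral_map (μ := stdGaussian (EuclideanSpace ℝ (Fin d)))
    (g := fun x : EuclideanSpace ℝ (Fin d) => -x) (f := fun x : EuclideanSpace ℝ (Fin d) => x)
    hA measurable_id.aestronglyMeasurable measurable_neg.aemeasurable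
  rw [map_neg_stdGaussian, integral_neg] at hsm
  have e : (fun x : EuclideanSpace ℝ (Fin d) => -x) ⁻¹' A = {x | -x ∈ A} := rfl
  rw [e] at hsm
  rw [hsm, neg_neg]

/-- Sign lemma: if every signed sum `b ± z_1 ± ... ± z_n` has norm at most `c`, then
`‖b‖² + ∑ ‖z_i‖² ≤ c²` (parallelogram law, induction). -/
theorem sum_sq_le_of_signs {V : Type*} [NormedAddCommGroup V] [InnerProductSpace ℝ V]
    {ι : Type*} [DecidableEq ι] (z : ι → V) (c : ℝ) (s : Finset ι) :
    ∀ b : V, (∀ ε : ι → Bool, ‖b + ∑ i ∈ s, (if ε i = true then z i else -z i)‖ ≤ c) →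
      ‖b‖ ^ 2 + ∑ i ∈ s, ‖z i‖ ^ 2 ≤ c ^ 2 := by
  induction s using Finset.induction_on with
  | empty =>
    intro b h
    have h0 := h (fun _ => true)
    simp only [Finset.sum_empty, add_zero] at h0 ⊢
    exact pow_le_pow_left₀ (norm_nonneg _) h0 2
  | insert a s ha ih =>
    intro b h
    have hcongr : ∀ (ε : ι → Bool) (v : Bool),
        ∑ i ∈ s, (if Function.update ε a v i = true then z i else -z i)
          = ∑ i ∈ s, (if ε i = true then z i else -z i) := by
      intro ε v
      apply Finset.sum_congr rfl
      intro i hi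
      have hia : i ≠ a := fun hh => ha (hh ▸ hi)
      rw [Function.update_of_ne hia]
    have h1 : ‖b + z a‖ ^ 2 + ∑ i ∈ s, ‖z i‖ ^ 2 ≤ c ^ 2 := by
      apply ih
      intro ε
      have h2 := h (Function.update ε a true)
      rw [Finset.sum_insert ha, hcongr, Function.update_self, if_pos rfl, ← add_assoc] at h2
      exact h2
    have h2 : ‖b - z a‖ ^ 2 + ∑ i ∈ s, ‖z i‖ ^ 2 ≤ c ^ 2 := by
      apply ih
      intro ε
      have h2 := h (Function.update ε a false)
      rw [Finset.sum_insert ha, hcongr, Function.update_self, if_neg (by simp), ← add_assoc,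
        ← sub_eq_add_neg] at h2
      exact h2
    have par := parallelogram_law_with_norm ℝ b (z a)
    rw [Finset.sum_insert ha]
    linarith

/-- If the sets `A i` together with their reflections are pairwise disjoint (for distinct
indices), then the sum of the squared norms of their first moments is at most `phi 0 ^ 2`. -/
theorem sum_sq_first_moment_le_of_antipodal {ι : Type*} [Fintype ι] [DecidableEq ι]
    (A : ι → Set (EuclideanSpace ℝ (Fin d))) (hA : ∀ i, MeasurableSet (A i))
    (hdisj : ∀ i j, i ≠ j → Disjoint (A i) (A j))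
    (hdisj' : ∀ i j, i ≠ j → Disjoint (A i) {x | -x ∈ A j}) :
    ∑ i, ‖∫ x in A i, x ∂(stdGaussian (EuclideanSpace ℝ (Fin d)))‖ ^ 2 ≤ phi 0 ^ 2 := by
  have hint : Integrable (fun x : EuclideanSpace ℝ (Fin d) => x)
      (stdGaussian (EuclideanSpace ℝ (Fin d))) := IsGaussian.integrable_id
  have hmeasneg : ∀ i, MeasurableSet {x : EuclideanSpace ℝ (Fin d) | -x ∈ A i} :=
    fun i => measurable_neg (hA i)
  have key := sum_sq_le_of_signs
    (fun i => ∫ x in A i, x ∂(stdGaussian (EuclideanSpace ℝ (Fin d)))) (phi 0) Finset.univ 0 ?_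
  · rw [norm_zero] at key
    have h0 : (0 : ℝ) ^ 2 = 0 := by norm_num
    rw [h0, zero_add] at key
    exact key
  · intro ε
    rw [zero_add]
    have hSm : ∀ i, MeasurableSet (if ε i = true then A i else {x | -x ∈ A i}) := by
      intro i
      by_cases h : ε i = true
      · rw [if_pos h]; exact hA i
      · rw [if_neg h]; exact hmeasneg i
    have hSd : Pairwise (Function.onFun Disjoint
        (fun i => if ε i = true then A i else {x | -x ∈ A i})) := by
      intro i j hij
      show Disjoint (if ε i = true then A i else {x | -x ∈ A i})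
        (if ε j = true then A j else {x | -x ∈ A j})
      by_cases hi : ε i = true
      · by_cases hj : ε j = true
        · rw [if_pos hi, if_pos hj]; exact hdisj i j hij
        · rw [if_pos hi, if_neg hj]; exact hdisj' i j hij
      · by_cases hj : ε j = true
        · rw [if_neg hi, if_pos hj]; exact (hdisj' j i (Ne.symm hij)).symm
        · rw [if_neg hi, if_neg hj]
          exact (hdisj i j hij).preimage (fun x : EuclideanSpace ℝ (Fin d) => -x)
    have hU := integral_iUnion_fintype (μ := stdGaussian (EuclideanSpace ℝ (Fin d)))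
      (f := fun x : EuclideanSpace ℝ (Fin d) => x) hSm hSd (fun i => hint.integrableOn)
    have hterm : ∀ i, ∫ x in (if ε i = true then A i else {x | -x ∈ A i}), x
        ∂(stdGaussian (EuclideanSpace ℝ (Fin d)))
        = if ε i = true then ∫ x in A i, x ∂(stdGaussian (EuclideanSpace ℝ (Fin d)))
          else -∫ x in A i, x ∂(stdGaussian (EuclideanSpace ℝ (Fin d))) := by
      intro i
      by_cases h : ε i = true
      · rw [if_pos h, if_pos h]
      · rw [if_neg h, if_neg h, first_moment_neg _ (hA i)]
    rw [Finset.sum_congr rfl (fun i _ => hterm i)] at hU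
    rw [← hU]
    exact norm_first_moment_le_phi_zero _ (MeasurableSet.iUnion hSm)

theorem phi_zero_sq : phi 0 ^ 2 = 1 / (2 * Real.pi) := by
  rw [phi_zero, div_pow, one_pow, Real.sq_sqrt (by positivity)]

/-- Selecting part of a centrally symmetric family so that no selected cell is the reflection
of another selected cell, the sum over the selected cells is at most `phi 0 ^ 2`. -/
theorem selected_bound {k : ℕ} (B : Fin k → Set (EuclideanSpace ℝ (Fin d)))
    (hB : ∀ i, MeasurableSet (B i)) (hdisj : ∀ i j, i ≠ j → Disjoint (B i) (B j))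
    (σ : Fin k → Fin k) (hσ : ∀ i, B (σ i) = {x | -x ∈ B i})
    (P : Fin k → Prop) [DecidablePred P] (hP : ∀ i j, P i → P j → σ j = i → σ i ≠ j) :
    ∑ i, (if P i then ‖∫ x in B i, x ∂(stdGaussian (EuclideanSpace ℝ (Fin d)))‖ ^ 2 else 0)
      ≤ phi 0 ^ 2 := by
  have hempty : {x : EuclideanSpace ℝ (Fin d) | -x ∈ (∅ : Set (EuclideanSpace ℝ (Fin d)))}
      = ∅ := by
    ext x; simp
  have h := sum_sq_first_moment_le_of_antipodal (fun i => if P i then B i else ∅) ?_ ?_ ?_
  · refine le_trans (le_of_eq ?_) h
    apply Finset.sum_congr rfl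
    intro i _
    by_cases hi : P i
    · rw [if_pos hi, if_pos hi]
    · rw [if_neg hi, if_neg hi]
      simp
  · intro i
    by_cases hi : P i
    · rw [if_pos hi]; exact hB i
    · rw [if_neg hi]; exact MeasurableSet.empty
  · intro i j hij
    by_cases hi : P i
    · by_cases hj : P j
      · rw [if_pos hi, if_pos hj]; exact hdisj i j hij
      · rw [if_neg hj]; exact disjoint_bot_right
    · rw [if_neg hi]; exact disjoint_bot_left
  · intro i j hij
    by_cases hi : P i
    · by_cases hj : P j
      · rw [if_pos hi, if_pos hj, ← hσ j]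
        by_cases hji : σ j = i
        · have hne : σ i ≠ j := hP i j hi hj hji
          have e1 : B (σ i) = B j := by
            rw [hσ i, ← hji, hσ j]
            ext x
            simp
          have hd := hdisj (σ i) j hne
          rw [e1] at hd
          have hBj : B j = ∅ := by
            have := disjoint_self.1 hd
            exact this
          rw [hji]
          have hBi : B i = ∅ := by
            rw [← hji, hσ j, hBj, hempty]
          rw [hBi]
          exact disjoint_bot_left
        · exact hdisj i (σ j) (fun hh => hji hh.symm)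
      · rw [if_neg hj, hempty]; exact disjoint_bot_right
    · rw [if_neg hi]; exact disjoint_bot_left

/-- Centrally symmetric families: the sum of squared first moments is at most `1 / π`. -/
theorem centrally_symmetric_bound (k : ℕ) (B : Fin k → Set (EuclideanSpace ℝ (Fin d)))
    (hB : ∀ i, MeasurableSet (B i)) (hdisj : ∀ i j, i ≠ j → Disjoint (B i) (B j))
    (hsym : ∀ i, ∃ j, B j = {x | -x ∈ B i}) :
    ∑ i, ‖∫ x in B i, x ∂(stdGaussian (EuclideanSpace ℝ (Fin d)))‖ ^ 2 ≤ 1 / Real.pi := by
  choose σ hσ using hsym
  have h1 := selected_bound B hB hdisj σ hσ (fun i => i < σ i) (by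
    intro i j hi hj hji hij
    have h1 : i < σ i := hi
    have h2 : j < σ j := hj
    rw [hji] at h2
    rw [hij] at h1
    exact lt_asymm h1 h2)
  have h2 := selected_bound B hB hdisj σ hσ (fun i => σ i < i) (by
    intro i j hi hj hji hij
    have h1 : σ i < i := hi
    have h2 : σ j < j := hj
    rw [hji] at h2
    rw [hij] at h1
    exact lt_asymm h1 h2)
  have hsplit : ∀ i, ‖∫ x in B i, x ∂(stdGaussian (EuclideanSpace ℝ (Fin d)))‖ ^ 2
      = (if i < σ i then ‖∫ x in B i, x ∂(stdGaussian (EuclideanSpace ℝ (Fin d)))‖ ^ 2 else 0)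
        + (if σ i < i then ‖∫ x in B i, x ∂(stdGaussian (EuclideanSpace ℝ (Fin d)))‖ ^ 2
            else 0) := by
    intro i
    rcases lt_trichotomy i (σ i) with hlt | heq | hgt
    · rw [if_pos hlt, if_neg (lt_asymm hlt), add_zero]
    · have hz : ∫ x in B i, x ∂(stdGaussian (EuclideanSpace ℝ (Fin d))) = 0 := by
        have hfm := first_moment_neg (B i) (hB i)
        rw [← hσ i, ← heq] at hfm
        have h2z : (2 : ℝ) • ∫ x in B i, x ∂(stdGaussian (EuclideanSpace ℝ (Fin d))) = 0 := by
          rw [two_smul]
          nth_rewrite 1 [hfm]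
          exact neg_add_cancel _
        exact (smul_eq_zero.1 h2z).resolve_left (by norm_num)
      rw [hz, norm_zero]
      simp
    · rw [if_neg (lt_asymm hgt), if_pos hgt, zero_add]
  rw [Finset.sum_congr rfl (fun i _ => hsplit i), Finset.sum_add_distrib]
  have hpi : phi 0 ^ 2 + phi 0 ^ 2 = 1 / Real.pi := by
    rw [phi_zero_sq]
    have hpos : 0 < Real.pi := Real.pi_pos
    field_simp
    norm_num
  rw [← hpi]
  exact add_le_add h1 h2

end Vale.Agent.Lib.P226
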