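import Mathlib
import Vale.Agent.Lib.P226.Symmetric

namespace Vale.Agent.Lib.P226

open MeasureTheory ProbabilityTheory Set

/-- Among all permutations, exactly half put `a` below `b`. -/
theorem perm_sum_pair {k : ℕ} (a b : Fin k) (hab : a ≠ b) :
    ∑ σ : Equiv.Perm (Fin k), (if σ a < σ b then (1 : ℝ) else 0) = (k.factorial : ℝ) / 2 := by
  have h1 : ∑ σ : Equiv.Perm (Fin k), (if σ a < σ b then (1 : ℝ) else 0)
      = ∑ σ : Equiv.Perm (Fin k), (if σ b < σ a then (1 : ℝ) else 0) := by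
    rw [← Equiv.sum_comp (Equiv.mulRight (Equiv.swap a b))]
    apply Finset.sum_congr rfl
    intro σ _
    simp [Equiv.Perm.mul_apply]
  have h2 : ∑ σ : Equiv.Perm (Fin k), ((if σ a < σ b then (1 : ℝ) else 0)
      + (if σ b < σ a then (1 : ℝ) else 0)) = (k.factorial : ℝ) := by
    have hone : ∀ σ : Equiv.Perm (Fin k), (if σ a < σ b then (1 : ℝ) else 0)
        + (if σ b < σ a then (1 : ℝ) else 0) = 1 := by
      intro σ
      have hne : σ a ≠ σ b := fun h => hab (σ.injective h)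
      rcases lt_or_gt_of_ne hne with h | h
      · rw [if_pos h, if_neg (lt_asymm h), add_zero]
      · rw [if_neg (lt_asymm h), if_pos h, zero_add]
    rw [Finset.sum_congr rfl (fun σ _ => hone σ)]
    simp [Fintype.card_perm]
  rw [Finset.sum_add_distrib, ← h1] at h2
  linarith

/-- Among all permutations, exactly one third put `i` above both `j` and `m`. -/
theorem perm_sum_triple {k : ℕ} (i j m : Fin k) (hij : i ≠ j) (him : i ≠ m) (hjm : j ≠ m) :
    ∑ σ : Equiv.Perm (Fin k), (if σ j < σ i ∧ σ m < σ i then (1 : ℝ) else 0)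
      = (k.factorial : ℝ) / 3 := by
  have h1 : ∑ σ : Equiv.Perm (Fin k), (if σ j < σ i ∧ σ m < σ i then (1 : ℝ) else 0)
      = ∑ σ : Equiv.Perm (Fin k), (if σ i < σ j ∧ σ m < σ j then (1 : ℝ) else 0) := by
    rw [← Equiv.sum_comp (Equiv.mulRight (Equiv.swap i j))]
    apply Finset.sum_congr rfl
    intro σ _
    simp [Equiv.Perm.mul_apply, Equiv.swap_apply_of_ne_of_ne (Ne.symm him) (Ne.symm hjm)]
  have h2 : ∑ σ : Equiv.Perm (Fin k), (if σ j < σ i ∧ σ m < σ i then (1 : ℝ) else 0)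
      = ∑ σ : Equiv.Perm (Fin k), (if σ j < σ m ∧ σ i < σ m then (1 : ℝ) else 0) := by
    rw [← Equiv.sum_comp (Equiv.mulRight (Equiv.swap i m))]
    apply Finset.sum_congr rfl
    intro σ _
    simp [Equiv.Perm.mul_apply, Equiv.swap_apply_of_ne_of_ne (Ne.symm hij) hjm]
  have h3 : ∑ σ : Equiv.Perm (Fin k), ((if σ j < σ i ∧ σ m < σ i then (1 : ℝ) else 0)
      + (if σ i < σ j ∧ σ m < σ j then (1 : ℝ) else 0)
      + (if σ j < σ m ∧ σ i < σ m then (1 : ℝ) else 0)) = (k.factorial : ℝ) := by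
    have hone : ∀ σ : Equiv.Perm (Fin k), (if σ j < σ i ∧ σ m < σ i then (1 : ℝ) else 0)
        + (if σ i < σ j ∧ σ m < σ j then (1 : ℝ) else 0)
        + (if σ j < σ m ∧ σ i < σ m then (1 : ℝ) else 0) = 1 := by
      intro σ
      have e1 : (σ i : ℕ) ≠ (σ j : ℕ) := fun h => hij (σ.injective (Fin.ext h))
      have e2 : (σ i : ℕ) ≠ (σ m : ℕ) := fun h => him (σ.injective (Fin.ext h))
      have e3 : (σ j : ℕ) ≠ (σ m : ℕ) := fun h => hjm (σ.injective (Fin.ext h))
      simp only [Fin.lt_def]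
      split_ifs <;> first | (exfalso; omega) | norm_num
    rw [Finset.sum_congr rfl (fun σ _ => hone σ)]
    simp [Fintype.card_perm]
  rw [Finset.sum_add_distrib, Finset.sum_add_distrib, ← h1, ← h2] at h3
  linarith

section Algebra

variable {V : Type*} [NormedAddCommGroup V] [InnerProductSpace ℝ V]

/-- For an antisymmetric array of vectors, `2 ∑ |row sum|² ≤ k ∑ |entry|²`
(the Laplacian of the complete graph has largest eigenvalue `k`). -/
theorem sum_sq_row_le_antisymm {k : ℕ} (w : Fin k → Fin k → V) (anti : ∀ i j, w j i = -w i j) :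
    2 * ∑ i, ‖∑ j, w i j‖ ^ 2 ≤ (k : ℝ) * ∑ i, ∑ j, ‖w i j‖ ^ 2 := by
  obtain ⟨z, hz⟩ : ∃ z : Fin k → V, ∀ i, z i = ∑ j, w i j := ⟨fun i => ∑ j, w i j, fun _ => rfl⟩
  rw [Finset.sum_congr rfl (fun i _ => by rw [← hz i])]
  obtain ⟨F, hF⟩ : ∃ F : ℝ, F = ∑ i, ‖z i‖ ^ 2 := ⟨_, rfl⟩
  obtain ⟨Q, hQ⟩ : ∃ Q : ℝ, Q = ∑ i, ∑ j, ‖w i j‖ ^ 2 := ⟨_, rfl⟩
  rw [← hF, ← hQ]
  have hcol : ∀ j, ∑ i, w i j = -z j := by
    intro j
    rw [hz j, ← Finset.sum_neg_distrib]
    exact Finset.sum_congr rfl (fun i _ => anti j i)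
  have h1 : ∑ i, ∑ j, inner ℝ (z i) (w i j) = F := by
    rw [hF]
    apply Finset.sum_congr rfl
    intro i _
    rw [← inner_sum, ← hz i, real_inner_self_eq_norm_sq]
  have h2 : ∑ i, ∑ j, inner ℝ (z j) (w i j) = -F := by
    rw [Finset.sum_comm, hF, ← Finset.sum_neg_distrib]
    apply Finset.sum_congr rfl
    intro j _
    rw [← inner_sum, hcol j, inner_neg_right, real_inner_self_eq_norm_sq]
  have h3 : ∑ i, ∑ j, inner ℝ (z i) (z j) = ‖∑ i, z i‖ ^ 2 := by
    rw [← real_inner_self_eq_norm_sq, sum_inner]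
    apply Finset.sum_congr rfl
    intro i _
    rw [inner_sum]
  have hpt : ∀ i j, 2 * (k : ℝ) * (inner ℝ (z i) (w i j) - inner ℝ (z j) (w i j))
      ≤ (‖z i‖ ^ 2 - 2 * inner ℝ (z i) (z j) + ‖z j‖ ^ 2) + (k : ℝ) ^ 2 * ‖w i j‖ ^ 2 := by
    intro i j
    have h := sq_nonneg ‖(z i - z j) - (k : ℝ) • w i j‖
    rw [norm_sub_sq_real, norm_smul, inner_smul_right, inner_sub_left, norm_sub_sq_real,
      Real.norm_natCast, mul_pow] at h
    linarith
  have hsum := Finset.sum_le_sum (fun i (_ : i ∈ Finset.univ) =>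
    Finset.sum_le_sum (fun j (_ : j ∈ Finset.univ) => hpt i j))
  simp only [Finset.sum_add_distrib, Finset.sum_sub_distrib, ← Finset.mul_sum, Finset.sum_const,
    Finset.card_univ, Fintype.card_fin, nsmul_eq_mul] at hsum
  rw [h1, h2, h3, ← hQ, ← hF] at hsum
  rcases Nat.eq_zero_or_pos k with hk | hk
  · subst hk
    rw [hF]
    simp
  · have hk' : (0 : ℝ) < (k : ℝ) := Nat.cast_pos.2 hk
    have hnn := sq_nonneg ‖∑ i, z i‖
    have hmain : (k : ℝ) * (2 * F) ≤ (k : ℝ) * ((k : ℝ) * Q) := by nlinarith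
    exact le_of_mul_le_mul_left hmain hk'

/-- Summing over all permutations the squared norm of the sum of those entries of a row
that lie below the diagonal entry in the permuted order. -/
theorem perm_sum_row {k : ℕ} (w : Fin k → V) (i : Fin k) (hi : w i = 0) :
    ∑ σ : Equiv.Perm (Fin k), ‖∑ j, (if σ j < σ i then w j else 0)‖ ^ 2
      = (k.factorial : ℝ) / 3 * ‖∑ j, w j‖ ^ 2 + (k.factorial : ℝ) / 6 * ∑ j, ‖w j‖ ^ 2 := by
  have hexp : ∀ σ : Equiv.Perm (Fin k), ‖∑ j, (if σ j < σ i then w j else 0)‖ ^ 2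
      = ∑ j, ∑ m, (if σ j < σ i ∧ σ m < σ i then (1 : ℝ) else 0) * inner ℝ (w j) (w m) := by
    intro σ
    rw [← real_inner_self_eq_norm_sq, sum_inner]
    apply Finset.sum_congr rfl
    intro j _
    rw [inner_sum]
    apply Finset.sum_congr rfl
    intro m _
    by_cases h1 : σ j < σ i <;> by_cases h2 : σ m < σ i <;> simp [h1, h2]
  rw [Finset.sum_congr rfl (fun σ _ => hexp σ), Finset.sum_comm]
  have hstep : ∀ j, ∑ σ : Equiv.Perm (Fin k), ∑ m,
      (if σ j < σ i ∧ σ m < σ i then (1 : ℝ) else 0) * inner ℝ (w j) (w m)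
      = ∑ m, (∑ σ : Equiv.Perm (Fin k), (if σ j < σ i ∧ σ m < σ i then (1 : ℝ) else 0))
          * inner ℝ (w j) (w m) := by
    intro j
    rw [Finset.sum_comm]
    apply Finset.sum_congr rfl
    intro m _
    rw [Finset.sum_mul]
  rw [Finset.sum_congr rfl (fun j _ => hstep j)]
  have hval : ∀ j m, (∑ σ : Equiv.Perm (Fin k),
      (if σ j < σ i ∧ σ m < σ i then (1 : ℝ) else 0)) * inner ℝ (w j) (w m)
      = (k.factorial : ℝ) / 3 * inner ℝ (w j) (w m)
        + (if j = m then (k.factorial : ℝ) / 6 * ‖w j‖ ^ 2 else 0) := by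
    intro j m
    by_cases hji : j = i
    · rw [hji, hi]
      simp
    · by_cases hmi : m = i
      · rw [hmi, hi, if_neg hji]
        simp
      · by_cases hjm : j = m
        · rw [← hjm]
          have hp : ∑ σ : Equiv.Perm (Fin k), (if σ j < σ i ∧ σ j < σ i then (1 : ℝ) else 0)
              = (k.factorial : ℝ) / 2 := by
            simp only [and_self]
            exact perm_sum_pair j i hji
          rw [hp, if_pos rfl, real_inner_self_eq_norm_sq]
          ring
        · rw [perm_sum_triple i j m (Ne.symm hji) (Ne.symm hmi) hjm, if_neg hjm, add_zero]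
  rw [Finset.sum_congr rfl (fun j _ => Finset.sum_congr rfl (fun m _ => hval j m))]
  have hinner : ∑ j, ∑ m, inner ℝ (w j) (w m) = ‖∑ j, w j‖ ^ 2 := by
    rw [← real_inner_self_eq_norm_sq, sum_inner]
    apply Finset.sum_congr rfl
    intro j _
    rw [inner_sum]
  simp only [Finset.sum_add_distrib, Finset.sum_ite_eq, Finset.mem_univ, if_true,
    ← Finset.mul_sum]
  rw [hinner]

/-- The algebraic core: an antisymmetric array of vectors all of whose order sums are bounded
has row sums bounded in terms of `k`. -/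
theorem alg_bound {k : ℕ} (w : Fin k → Fin k → V) (anti : ∀ i j, w j i = -w i j) (c : ℝ)
    (H : ∀ σ : Equiv.Perm (Fin k), ∑ i, ‖∑ j, (if σ j < σ i then w i j else 0)‖ ^ 2 ≤ c) :
    ((k : ℝ) + 1) * ∑ i, ‖∑ j, w i j‖ ^ 2 ≤ 3 * (k : ℝ) * c := by
  have hii : ∀ i, w i i = 0 := by
    intro i
    have h := anti i i
    have h2 : (2 : ℝ) • w i i = 0 := by
      rw [two_smul]
      nth_rewrite 1 [h]
      exact neg_add_cancel _
    exact (smul_eq_zero.1 h2).resolve_left (by norm_num)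
  obtain ⟨F, hF⟩ : ∃ F : ℝ, F = ∑ i, ‖∑ j, w i j‖ ^ 2 := ⟨_, rfl⟩
  obtain ⟨Q, hQ⟩ : ∃ Q : ℝ, Q = ∑ i, ∑ j, ‖w i j‖ ^ 2 := ⟨_, rfl⟩
  have h1 : (k.factorial : ℝ) / 3 * F + (k.factorial : ℝ) / 6 * Q ≤ (k.factorial : ℝ) * c := by
    have hsum : ∑ σ : Equiv.Perm (Fin k), ∑ i, ‖∑ j, (if σ j < σ i then w i j else 0)‖ ^ 2
        ≤ ∑ σ : Equiv.Perm (Fin k), c := Finset.sum_le_sum (fun σ _ => H σ)
    rw [Finset.sum_comm,
      Finset.sum_congr rfl (fun i _ => perm_sum_row (w i) i (hii i))] at hsum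
    simp only [Finset.sum_add_distrib, ← Finset.mul_sum, Finset.sum_const, Finset.card_univ,
      Fintype.card_perm, Fintype.card_fin, nsmul_eq_mul] at hsum
    rw [← hF, ← hQ] at hsum
    exact hsum
  have h2 := sum_sq_row_le_antisymm w anti
  rw [← hF, ← hQ] at h2
  rw [← hF]
  have hfact : (0 : ℝ) < (k.factorial : ℝ) := Nat.cast_pos.2 (Nat.factorial_pos k)
  have h3 : 2 * F + Q ≤ 6 * c := by
    have h4 : (k.factorial : ℝ) * (2 * F + Q) ≤ (k.factorial : ℝ) * (6 * c) := by nlinarith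
    exact le_of_mul_le_mul_left h4 hfact
  have hk : (0 : ℝ) ≤ (k : ℝ) := Nat.cast_nonneg k
  nlinarith [mul_nonneg hk (sub_nonneg.2 h3)]

end Algebra

section Measure

variable {d : ℕ}

/-- Order inequality: for pairwise disjoint measurable cells and any labelling `h` of the cells,
the parts of the cells whose reflection lies in a cell of smaller label have first moments
whose squared norms sum to at most `phi 0 ^ 2`. -/
theorem antipodal_order_bound {k : ℕ} (A : Fin k → Set (EuclideanSpace ℝ (Fin d)))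
    (hA : ∀ i, MeasurableSet (A i)) (hdisj : ∀ i j, i ≠ j → Disjoint (A i) (A j))
    (h : Fin k → Fin k) :
    ∑ i, ‖∑ j, (if h j < h i
        then ∫ x in A i ∩ {x | -x ∈ A j}, x ∂(stdGaussian (EuclideanSpace ℝ (Fin d)))
        else 0)‖ ^ 2 ≤ phi 0 ^ 2 := by
  have hint : Integrable (fun x : EuclideanSpace ℝ (Fin d) => x)
      (stdGaussian (EuclideanSpace ℝ (Fin d))) := IsGaussian.integrable_id
  have hmem : ∀ i x, x ∈ (⋃ j, (if h j < h i then A i ∩ {x | -x ∈ A j} else ∅))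
      ↔ x ∈ A i ∧ ∃ j, h j < h i ∧ -x ∈ A j := by
    intro i x
    rw [Set.mem_iUnion]
    constructor
    · rintro ⟨j, hj⟩
      by_cases hlt : h j < h i
      · rw [if_pos hlt] at hj
        exact ⟨hj.1, j, hlt, hj.2⟩
      · rw [if_neg hlt] at hj
        exact absurd hj (Set.notMem_empty x)
    · rintro ⟨hx, j, hlt, hj⟩
      refine ⟨j, ?_⟩
      rw [if_pos hlt]
      exact ⟨hx, hj⟩
  have hCm : ∀ i j, MeasurableSet (if h j < h i then A i ∩ {x | -x ∈ A j} else ∅) := by
    intro i j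
    by_cases hlt : h j < h i
    · rw [if_pos hlt]
      exact (hA i).inter (measurable_neg (hA j))
    · rw [if_neg hlt]
      exact MeasurableSet.empty
  have hDm : ∀ i, MeasurableSet (⋃ j, (if h j < h i then A i ∩ {x | -x ∈ A j} else ∅)) :=
    fun i => MeasurableSet.iUnion (hCm i)
  have hCd : ∀ i, Pairwise (Function.onFun Disjoint
      (fun j => if h j < h i then A i ∩ {x | -x ∈ A j} else ∅)) := by
    intro i j j' hjj'
    show Disjoint (if h j < h i then A i ∩ {x | -x ∈ A j} else ∅)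
      (if h j' < h i then A i ∩ {x | -x ∈ A j'} else ∅)
    by_cases hlt : h j < h i
    · by_cases hlt' : h j' < h i
      · rw [if_pos hlt, if_pos hlt', Set.disjoint_left]
        intro x hx hx'
        exact (Set.disjoint_left.1 (hdisj j j' hjj')) hx.2 hx'.2
      · rw [if_neg hlt']
        exact disjoint_bot_right
    · rw [if_neg hlt]
      exact disjoint_bot_left
  have key := sum_sq_first_moment_le_of_antipodal
    (fun i => ⋃ j, (if h j < h i then A i ∩ {x | -x ∈ A j} else ∅)) hDm ?_ ?_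
  · refine le_trans (le_of_eq ?_) key
    apply Finset.sum_congr rfl
    intro i _
    have hU := integral_iUnion_fintype (μ := stdGaussian (EuclideanSpace ℝ (Fin d)))
      (f := fun x : EuclideanSpace ℝ (Fin d) => x) (hCm i) (hCd i) (fun j => hint.integrableOn)
    rw [hU]
    congr 2
    apply Finset.sum_congr rfl
    intro j _
    by_cases hlt : h j < h i
    · rw [if_pos hlt, if_pos hlt]
    · rw [if_neg hlt, if_neg hlt]
      simp
  · intro i l hil
    rw [Set.disjoint_left]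
    intro x hx hx'
    exact (Set.disjoint_left.1 (hdisj i l hil)) ((hmem i x).1 hx).1 ((hmem l x).1 hx').1
  · intro i l hil
    rw [Set.disjoint_left]
    intro x hx hx'
    obtain ⟨hxi, j, hji, hxj⟩ := (hmem i x).1 hx
    have hx'' : -x ∈ (⋃ j, (if h j < h l then A l ∩ {x | -x ∈ A j} else ∅)) := hx'
    obtain ⟨hxl, m, hml, hxm⟩ := (hmem l (-x)).1 hx''
    rw [neg_neg] at hxm
    have hjl : j = l := by
      by_contra hne
      exact (Set.disjoint_left.1 (hdisj j l hne)) hxj hxl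
    have hmi : m = i := by
      by_contra hne
      exact (Set.disjoint_left.1 (hdisj m i hne)) hxm hxi
    rw [hjl] at hji
    rw [hmi] at hml
    exact lt_asymm hji hml

/-- The first moment of a cell of a partition is the sum of the first moments of its
intersections with the reflected cells. -/
theorem first_moment_eq_sum_antipodal {k : ℕ} (A : Fin k → Set (EuclideanSpace ℝ (Fin d)))
    (hA : ∀ i, MeasurableSet (A i)) (hdisj : ∀ i j, i ≠ j → Disjoint (A i) (A j))
    (hcover : ⋃ i, A i = Set.univ) (i : Fin k) :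
    ∫ x in A i, x ∂(stdGaussian (EuclideanSpace ℝ (Fin d)))
      = ∑ j, ∫ x in A i ∩ {x | -x ∈ A j}, x ∂(stdGaussian (EuclideanSpace ℝ (Fin d))) := by
  have hint : Integrable (fun x : EuclideanSpace ℝ (Fin d) => x)
      (stdGaussian (EuclideanSpace ℝ (Fin d))) := IsGaussian.integrable_id
  have hU : A i = ⋃ j, (A i ∩ {x | -x ∈ A j}) := by
    ext x
    rw [Set.mem_iUnion]
    constructor
    · intro hx
      have hneg : -x ∈ ⋃ i, A i := by
        rw [hcover]
        exact Set.mem_univ _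
      obtain ⟨j, hj⟩ := Set.mem_iUnion.1 hneg
      exact ⟨j, hx, hj⟩
    · rintro ⟨j, hx, _⟩
      exact hx
  have hd : Pairwise (Function.onFun Disjoint (fun j => A i ∩ {x | -x ∈ A j})) := by
    intro j j' hjj'
    show Disjoint (A i ∩ {x | -x ∈ A j}) (A i ∩ {x | -x ∈ A j'})
    rw [Set.disjoint_left]
    intro x hx hx'
    exact (Set.disjoint_left.1 (hdisj j j' hjj')) hx.2 hx'.2
  have h := integral_iUnion_fintype (μ := stdGaussian (EuclideanSpace ℝ (Fin d)))
    (f := fun x : EuclideanSpace ℝ (Fin d) => x) (s := fun j => A i ∩ {x | -x ∈ A j})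
    (fun j => (hA i).inter (measurable_neg (hA j))) hd (fun j => hint.integrableOn)
  rw [← hU] at h
  exact h

/-- Antisymmetry of the first moments of the pieces `A i ∩ -A j`. -/
theorem first_moment_antipodal_antisymm {k : ℕ} (A : Fin k → Set (EuclideanSpace ℝ (Fin d)))
    (hA : ∀ i, MeasurableSet (A i)) (i j : Fin k) :
    ∫ x in A j ∩ {x | -x ∈ A i}, x ∂(stdGaussian (EuclideanSpace ℝ (Fin d)))
      = -∫ x in A i ∩ {x | -x ∈ A j}, x ∂(stdGaussian (EuclideanSpace ℝ (Fin d))) := by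
  have hset : A j ∩ {x | -x ∈ A i} = {x | -x ∈ A i ∩ {x | -x ∈ A j}} := by
    ext x
    constructor
    · rintro ⟨h1, h2⟩
      refine ⟨h2, ?_⟩
      show - -x ∈ A j
      rw [neg_neg]
      exact h1
    · rintro ⟨h1, h2⟩
      have h3 : - -x ∈ A j := h2
      rw [neg_neg] at h3
      exact ⟨h3, h1⟩
  rw [hset]
  exact first_moment_neg _ ((hA i).inter (measurable_neg (hA j)))

/-- Every measurable partition of `ℝ^d` into `k` cells satisfies
`∑ |z(A_i)|² ≤ 3 k / (2 π (k + 1))`. -/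
theorem partition_bound (k : ℕ) (A : Fin k → Set (EuclideanSpace ℝ (Fin d)))
    (hA : ∀ i, MeasurableSet (A i)) (hdisj : ∀ i j, i ≠ j → Disjoint (A i) (A j))
    (hcover : ⋃ i, A i = Set.univ) :
    ∑ i, ‖∫ x in A i, x ∂(stdGaussian (EuclideanSpace ℝ (Fin d)))‖ ^ 2
      ≤ 3 * (k : ℝ) / (2 * Real.pi * ((k : ℝ) + 1)) := by
  have h := alg_bound
    (fun i j => ∫ x in A i ∩ {x | -x ∈ A j}, x ∂(stdGaussian (EuclideanSpace ℝ (Fin d))))
    (fun i j => first_moment_antipodal_antisymm A hA i j) (phi 0 ^ 2)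
    (fun σ => antipodal_order_bound A hA hdisj σ)
  rw [Finset.sum_congr rfl
    (fun i _ => by rw [← first_moment_eq_sum_antipodal A hA hdisj hcover i])] at h
  rw [phi_zero_sq] at h
  have hpi : 0 < Real.pi := Real.pi_pos
  have hk : (0 : ℝ) ≤ (k : ℝ) := Nat.cast_nonneg k
  rw [le_div_iff₀ (by positivity)]
  have h5 : 3 * (k : ℝ) * (1 / (2 * Real.pi)) * (2 * Real.pi) = 3 * (k : ℝ) := by
    field_simp
  nlinarith [mul_le_mul_of_nonneg_right h (by positivity : (0 : ℝ) ≤ 2 * Real.pi)]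

end Measure

end Vale.Agent.Lib.P226
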